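import Crest.Agent.X212.Cut19.Std
import Crest.Agent.X212.Nv5.Cyl

/-!
# Row 212, layer GEO (helper19): the two caps of `S² × S¹`

* `nc k h s` : the chart of a timed neck, translated;  `tM hv` : toric manifolds;
* `R0`, `N0` (the plumbing), `B0` (`S¹ × ℝ³`).
-/

set_option autoImplicit false
set_option linter.unusedSectionVars false

open Set Filter Topology Function Metric
open scoped ContDiff Manifold
open Crest.Agent.R208.F (Ext)
open Crest.Agent.X212.Bor5.T Crest.Agent.X212.Orx52 Crest.Agent.X212.Rod53 Crest.Agent.X212.Geo28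
open Crest.Agent.X212.Cyl58 (TP TIso cylT IsOE)
open Crest.Agent.X212.Int54 (Ori SameOn)

noncomputable section

namespace Crest.Agent.X212.Cut19

section nc

variable {W : W4} {A : O3} {J J' : Set ℝ} (k : TIso A.cyl W.X J') (h : TPos k (pr A.o oR) W.o) (s : ℝ)
  (hJ : IsOpen J) (m : ∀ t ∈ J, t + s ∈ J')

/-- the translated chart -/
def sh : TIso A.cyl (W.X.shift (-s)) J :=
  TIso.mk' hJ (fun p => k (p.1, p.2 + s))
    (fun p hp => ((Nv5.oe_sh A s).loc p).comp _ _ (k.ld (x := (p.1, p.2 + s)) (m _ hp)))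
    (fun p q hp hq e => (Nv5.oe_sh A s).inj (k.inj (x := (p.1, p.2 + s)) (y := (q.1, q.2 + s)) (m _ hp) (m _ hq) e))
    (fun p hp => (congrArg (· + -s) (k.tm (p.1, p.2 + s) (m _ hp))).trans (add_neg_cancel_right _ _)) fun y hy => by
      obtain ⟨x, h1, h2⟩ := k.surj (y := y) (neg_add_cancel_right (W.X.τ y) s ▸ m _ hy)
      exact ⟨(x.1, x.2 + -s), (congrArg (· + -s) h1).symm.subst (motive := (· ∈ J)) hy,
        (congrArg (fun t => k (x.1, t)) (neg_add_cancel_right _ _)).trans h2⟩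

include h in
theorem tpos_sh : TPos (sh k s hJ m) (pr A.o oR) W.o :=
  have e : Pos A.cyl.P.I W.X.P.I (k ∘ fun p : A.cyl.P.M => (p.1, p.2 + s)) (A.cyl.τ ⁻¹' J) (pr A.o oR) W.o :=
    Pos.comp h ((Nv5.pos_sh A s).mono (subset_univ _))
      (fun _ => k.ld) (fun p _ => (Nv5.oe_sh A s).loc p) fun _ hp => m _ hp
  e

/-- the chart of a timed neck -/
def nc : Nc A (m4 W) J where
  k := (sh k s hJ m).φ
  tm x := W.X.τ x - s
  cont := W.X.cont.sub continuous_const
  src := (sh k s hJ m).src.trans (Set.ext fun _ => ⟨fun h => ⟨trivial, h⟩, And.right⟩)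
  tgt := (sh k s hJ m).tgt
  tmk x hx := (sh k s hJ m).tm x ((sh k s hJ m).src.le hx)
  pos := Pos.mono (tpos_sh k h s hJ m) (sh k s hJ m).src.le

theorem nc_k (p : A.Y.M × ℝ) : (nc k h s hJ m).k p = k (p.1, p.2 + s) := rfl

theorem nc_tm (x : W.M) : (nc k h s hJ m).tm x = W.X.τ x - s := rfl

end nc

/-- the toric manifold of a word, oriented by `-oT` -/
abbrev tM {v : ℝ → Z2} (hv : Loc v) : M4 := m4 (cW hv 10 12 5)

/-- the neck of the plumbing -/
abbrev aN : AR torT (wd wN) mR 10 12 := rA torT u10 (arc_sw (PM.refl _))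

/-- the neck of `S¹ × ℝ³` -/
abbrev aB : AR torT (wd wB) mR 10 12 := rA torT u10 (arc_sw (PM.refl _))

theorem exN : ∃ o, Ori mR.I (M := mR.M) o ∧ Pos (mR.I.prod 𝓘(ℝ, ℝ)) (𝓡 4) aN.j univ (pr o oR) (oc isN.loc) :=
  exists_o ori_mR aN (oX_spec isN.loc ori_tor).ori

/-- `S¹ × S²` -/
def R0 : R3 where
  Y := mR
  o := exN.choose
  ori := exN.choose_spec.1
  φ := Diffeomorph.prodComm _ _ _ _ _

theorem posN : Pos (mR.I.prod 𝓘(ℝ, ℝ)) (𝓡 4) aN.j univ (pr R0.o oR) (oc isN.loc) := exN.choose_spec.2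

theorem ag_sw {x₀ x₁ x₂ x₃ y₁ y₂ : Z2} {t : ℝ} (h : 12 < |t - 10|) :
    t ∈ interior {x | wd (sw x₀ x₁ x₂ x₃) x = wd (sw x₀ y₁ y₂ x₃) x} := by
  refine interior_maximal (t := {x | 12 < |x - 10|}) (fun x (hx : 12 < |x - 10|) => ?_) (isOpen_out 10 12) h
  rcases lt_abs.1 hx with k | k
  · exact wd_congr (i := 20) (j := ⌊x⌋) (fun n a _ => by simp only [sw, if_neg (by omega : ¬n < 0),
      if_neg (by omega : ¬n < 10), if_neg (by omega : ¬n < 20)]) ⟨by push_cast; linarith, Int.lt_floor_add_one x⟩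
  · exact wd_congr (i := ⌊x⌋ - 1) (j := -1) (fun n _ a => by simp only [sw, if_pos (by omega : n < 0)])
      ⟨by push_cast; linarith [Int.floor_le x], by push_cast; linarith⟩

theorem chg_j (p : mR.M × ℝ) : torT.chgPD (wd wN) (wd wB) (aN.j p) = aB.j p := by
  have A : Tb.Arc (wd wN) (1, 0) (1, 0) 10 (rd 12) := arc_sw (PM.refl _)
  refine (TE.refl torT).fn_rod u10 (A.mem_Ur p) ?_
  have k := torT.mem_ag_out (c := 10) (r := 12) (v := wd wN) (v' := wd wB) (fun _ => ag_sw) (p := aN.j p)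
    fun e => (lt_rd 12 p.2).not_ge (aN.j_mem.1 e)
  exact k.imp (torT.eta_rod u10 (A.mem_Ur p)).1 fun e => torT.time_rod u10 (A.mem_Ur p) ▸ e

theorem posB : Pos (mR.I.prod 𝓘(ℝ, ℝ)) (𝓡 4) aB.j univ (pr R0.o oR) (oc isB.loc) :=
  ((((oX_spec isN.loc ori_tor).fn (oX_spec isB.loc ori_tor) (TE.refl _) (pos_id.2 ori_tor.same)).comp posN
    (fun _ => (TE.refl torT).ld_fn) (fun p _ => aN.oe.loc p) fun p _ => torT.mem_ag_out (c := 10) (r := 12)
      (fun _ => ag_sw) fun e => (lt_rd 12 p.2).not_ge (aN.j_mem.1 e)).congr isOpen_univ fun p _ => (chg_j p).symm)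

variable {v : ℝ → Z2} {Y : O3} (hv : Loc v) (A : AR torT v Y.Y 10 12)
  (h : Pos (IY Y) (𝓡 4) A.j univ (pr Y.o oR) (oc hv))

/-- the end of a toric cap -/
def kc : Nc Y (tM hv) (Iio 0) :=
  nc (A.ki hv 5) (h.mono (subset_univ _)) 4 isOpen_Iio fun t (k : t < 0) => show t + 4 < 5 by linarith

theorem kc_k (p : Y.Y.M × ℝ) : (kc hv A h).k p = A.j (p.1, p.2 + 4) := rfl

theorem kc_tm (x : X torT v) : (kc hv A h).tm x = ct 12 5 (torT.rr v 10 x) - 4 := rfl

/-- a toric cap -/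
abbrev cap : Pm (some Y) none none :=
  En2.pm (a := some Y) (b := none) ⟨kc hv A h, (), fun _ _ => le_rfl, fun T =>
    ((cW hv 10 12 5).X.prop (4 - T) 5).of_isClosed_subset
      ((isClosed_le continuous_const (kc hv A h).cont).inter (isClosed_const (p := (0 : ℝ) ≤ T ∧ (0 : ℝ) ≤ T)))
      fun _ k => ⟨by linarith [show -T ≤ _ - 4 from k.1], ct_le _ _ _⟩⟩

/-- the plumbing -/
abbrev N0 : Pm (some R0.toO3) none none := cap (Y := R0.toO3) isN.loc aN posN

/-- `S¹ × ℝ³` -/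
abbrev B0 : Pm (some R0.toO3) none none := cap (Y := R0.toO3) isB.loc aB posB

end Crest.Agent.X212.Cut19
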