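import Crest.Agent.X212.Cut19.Lr
import Crest.Agent.X212.Mv17.Thm
import Crest.Agent.X212.Lab56.Exi

/-!
# Row 212, layer GEO (helper19): the caps `N0`, `B0` as `CG`, `Pen22.CH`
-/

set_option autoImplicit false
set_option linter.unusedSectionVars false

open Set Filter Topology Function
open scoped ContDiff Manifold Real
open Crest.Agent.X212.Bor5.T Crest.Agent.X212.Geo28 Crest.Agent.X212.Dr59 Crest.Agent.X212.Nvg56
open Crest.Agent.X212.Rod53 (torT wd)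
open Crest.Agent.X212.Pen22 (CH thm)

noncomputable section

namespace Crest.Agent.X212.Cut19

theorem tor_of {A : O3} {X : M4} (k : Nc A X (Iio 0)) {d : X.L} {c : X.Fm} {s : A.L} (h : Cur d c) (hs : k.Cl d s)
    (e : Ex X.I (k.tm ⁻¹' Iio 0) c) : Tor s := by
  obtain ⟨f, hf⟩ := exists_cur s
  have b : Ex (IY A) (univ ×ˢ Iio 0) (pm (IY A) X.I k.k c) :=
    (k.tgt.symm.trans k.k.image_source_eq_target.symm ▸ e :).pm (k.src ▸ pd_mp k.k subset_rfl)
  have a := b.sub (cur_pb (isOpen_univ.prod isOpen_Iio) hs hf h)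
  rw [sub_sub_cancel] at a
  exact ⟨f, hf, univ_prod_univ ▸ Mv17.ex_cyl isOpen_univ isOpen_univ ordConnected_univ (subset_univ _) nonempty_Iio
    ((cur_cl hf).mono (subset_univ _)) a⟩

theorem UN_rr (s : Bool) {x : N0.M} (h : x ∈ UN s) : torT.rr (wd wN) 10 x < 12 := by
  have := torT.rr_le 10 (cond s 15 5) x
  have k : torT.rr (wd wN) (cond s 15 5) x < 7 := h.2
  cases s <;> norm_num at this k <;> linarith

theorem UN_core (s : Bool) : UN s ⊆ N0.Core := fun x h =>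
  ⟨sub_nonneg.2 (not_lt.1 fun e => ((UN_rr s h).trans (lt_rd 12 4)).not_gt ((ct_lt (by norm_num)).1 e)),
    le_rfl, le_rfl⟩

theorem neL : Nonempty N0.L := (Lab56.tor_wd (T := torT) isN).map (Lab56.Cls.res fun x _ => Rod53.tor_torT _ x)

/-- the reflections of the plumbing -/
structure RN where
  r : Bool → LR N0.X
  U : ∀ s, (r s).U = UN s
  ip : N0.X.ip (r false).e (r true).e = 1

theorem exists_RN (h : Lvs) : Nonempty RN :=
  let ⟨r, U, i⟩ := h.ln
  ⟨⟨fun s => ⟨r s, U s ▸ h.chr s _ ⟨_, U s ▸ (r s).lat⟩⟩, U, i⟩⟩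

namespace RN

variable (ρ : RN) (h : Lvs)

theorem gn (s : Bool) : Gn s (ρ.r s).e := ⟨_, ρ.U s ▸ (ρ.r s).lat⟩

theorem core (s : Bool) : (ρ.r s).U ⊆ N0.Core := ρ.U s ▸ UN_core s

include ρ h

theorem ex_iff {y : N0.Fm} (hy : Cl N0.X.I 2 univ y) : Ex N0.X.I (Nc.tm (A := R0.toO3) N0.ki ⁻¹' Iio 0) y ↔
    N0.X.ip y (ρ.r false).e + N0.X.ip y (ρ.r true).e = 0 := by
  obtain ⟨χ, ε, a, b, c⟩ := h.sph _ ρ.gn ρ.ip
  rw [← (h.thm R0 N0.X N0.ki χ a).2 _ isOpen_Iio ordConnected_Iio (Icc_subset_Iic_self.trans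
    (Iic_subset_Iio.2 (by norm_num))) subset_rfl y (hy.mono (subset_univ _)), c y (hy.mono (subset_univ _))]
  exact mul_eq_zero_iff_left (mul_ne_zero (by rcases b with b | b <;> simp [b]) Real.two_pi_pos.ne')

theorem fin (S : Set N0.L) : N0.Fin S := by
  classical
  refine ⟨Finset.univ.image fun s => (ρ.r s).e, fun e k => ?_, fun C => ?_⟩
  · obtain ⟨s, -, rfl⟩ := Finset.mem_image.1 k
    exact (ρ.r s).cs.mono fun x k => let ⟨a, _⟩ := ρ.core s k
      ⟨neg_one_lt_zero.le.trans a, zero_le_one, zero_le_one⟩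
  · refine ((Finite.pi' fun _ : Bool => finite_Icc (-⌈C⌉) ⌈C⌉).biUnion (t := fun n =>
      {d | ∃ c, Cur d c ∧ ∀ s, N0.X.ip c (ρ.r s).e = 2 * π * n s}) fun n _ => Subsingleton.finite
        fun d ⟨c, a, b⟩ d' ⟨c', a', b'⟩ => h.cln.inj _ ρ.gn _ _ _ _ a a' fun s => (b s).trans (b' s).symm).subset
      fun d ⟨_, c, a, b⟩ => ?_
    choose n _ hn using fun s => (ρ.r s).odd a
    refine mem_biUnion (x := n) (fun s => abs_le.1 (Int.le_ceil_iff.2 ?_)) ⟨c, a, hn⟩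
    have := b _ (Finset.mem_image_of_mem _ (Finset.mem_univ s))
    rw [hn, abs_mul, abs_of_pos Real.two_pi_pos] at this
    push_cast
    nlinarith [Real.two_le_pi, abs_nonneg (n s : ℝ)]

theorem ext : Ext2 (A := R0.toO3) N0.ki ∅ := by
  obtain ⟨c, a, b⟩ : ∃ c, Cl N0.X.I 2 univ c ∧ N0.X.ip c (ρ.r false).e + N0.X.ip c (ρ.r true).e ≠ 0 := by
    obtain ⟨x⟩ := neL
    obtain ⟨c, a⟩ := exists_cur x
    obtain ⟨x', c', a', b⟩ := h.cln.sur _ ρ.gn x c (fun _ => 1) a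
    by_contra! k
    have := k _ (cur_cl a')
    rw [b, b] at this
    have := k _ (cur_cl a)
    push_cast at *
    linarith [Real.pi_pos]
  refine ⟨c, a, nofun, fun e => b ((ρ.ex_iff h a).1 ?_)⟩
  have k := Nc.src (A := R0.toO3) N0.ki
  have := ex_pd (Nc.k (A := R0.toO3) N0.ki) (isOpen_univ.prod isOpen_Iio) k.ge e
  rwa [← k, PartialEquiv.image_source_eq_target, Nc.tgt] at this

end RN

theorem nk0 {A : O3} {X : M4} (k : Nc A X (Iio 0)) (d : X.L) : ∃ s, k.Cl d s :=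
  Mv17.nc_ex k isOpen_Iio ordConnected_Iio nonempty_Iio d

/-- the two caps -/
abbrev RN.G (ρ : RN) (h : Lvs) : CG where
  R := R0
  N := N0
  B := B0
  c0 := (h.r3 R0).choose
  tor := (h.r3 R0).choose_spec.1
  uq := (h.r3 R0).choose_spec.2
  dB := h.b.one.choose
  clB := let ⟨_, k⟩ := nk0 (A := R0.toO3) B0.ki h.b.one.choose
    let ⟨_, a⟩ := exists_cur h.b.one.choose
    (h.r3 R0).choose_spec.2 _ (tor_of _ a k ((h.b.hz _ (cur_cl a)).mono (subset_univ _))) ▸ k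
  uB := h.b.one.choose_spec
  ρ s := (ρ.r s).rf (ρ.core s)
  fin := ρ.fin h _
  ext := ρ.ext h
  sur v k := let ⟨w, a, b⟩ := h.b.sur v k
    ⟨w, a, fun y t e => b y (t + 4) (by linarith)⟩

/-- the spheres -/
def RN.H (ρ : RN) (h : Lvs) : CH (ρ.G h) where
  e s := (ρ.r s).e
  zr s := (ρ.r s).cs.mono (ρ.core s)
  ee
    | false, false => (ρ.r _).ee
    | true, true => (ρ.r _).ee
    | false, true => ρ.ip
    | true, false => (ip_comm (I := N0.X.I) (ρ.r true).cs.cl.dg _).trans ρ.ip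
  rf s _ _ a b :=
    have m : (ρ.r s).U ⊆ Pen22.nU (ρ.G h) := fun _ k => lt_of_lt_of_le (by norm_num) (ρ.core s k).1
    (ρ.r s).rfl' (a.mono m) (b.mono m)
  hf s _ _ := (ρ.r s).half_iff
  int s _ _ k := ((ρ.r s).odd k).imp fun _ => And.right
  inj := h.cln.inj _ ρ.gn
  one := by
    obtain ⟨x⟩ := neL
    obtain ⟨c, a⟩ := exists_cur x
    choose n o hn using fun s => (ρ.r s).odd a
    choose m hm using o
    obtain ⟨x', c', a', b⟩ := h.cln.sur _ ρ.gn x c (fun s => cond s (-m s - 1) (-m s)) a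
    obtain ⟨s, k⟩ := nk0 (A := R0.toO3) N0.ki x'
    have e : ∀ s, N0.X.ip c' (ρ.r s).e = cond s (-(2 * π)) (2 * π) := fun s => by
      rw [b, hn, hm]
      cases s <;> simp <;> ring
    obtain rfl : s = (ρ.G h).c0 := (ρ.G h).uq _ (tor_of _ a' k ((ρ.ex_iff h (cur_cl a')).2 (by
      rw [e, e]
      exact add_neg_cancel _)))
    exact ⟨x', c', a', k, e false⟩
  sph := (h.sph _ ρ.gn ρ.ip :)
  hB := h.b.hz

end Crest.Agent.X212.Cut19
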