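import Crest.Agent.X212.Cut19.Cap
import Crest.Agent.X212.Geo7.Re
import Crest.Agent.X212.Nv5.Pnk

/-!
# Row 212, layer GEO (helper19): cutting along an embedded toric cap

* `Em hv X` : an embedding of the part `rr < 14` of a toric manifold; `E.R` : the radius, cut off at `13`;
* `E.L` : the part `12 < R` as a piece with a third end;  `Tr` : the same piece in a second manifold;
* `Tr.cp` : the capping.
-/

set_option autoImplicit false
set_option linter.unusedSectionVars false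

open Set Filter Topology Function Metric TopologicalSpace
open scoped ContDiff Manifold
open Crest.Agent.X212.Bor5.T Crest.Agent.X212.Orx52 Crest.Agent.X212.Rod53 Crest.Agent.X212.Geo28
open Crest.Agent.X212.Cyl58 (IsOE isOE_val)
open Crest.Agent.X212.M (Mf)
open Crest.Agent.X212.Geo7 (pdOf mkN)

noncomputable section

namespace Crest.Agent.X212.Cut19

/-- the orientation of an open part -/
def subO (X : M4) (U : Opens X.M) : U → R208.F.Ext X.X.E := Dr59.pm X.I X.I Subtype.val X.o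

theorem ori_subO (X : M4) (U : Opens X.M) : Int54.Ori X.I (subO X U) := ori_pm X.ori (isOE_val U).loc

/-- an open part -/
abbrev sub (X : M4) (U : Opens X.M) (h : IsConnected (U : Set X.M)) : M4 :=
  @M4.mk (Mf.ofB 4 X.I U X.X.dim) (isConnected_iff_connectedSpace.1 h) (subO X U) (ori_subO X U)

section sub

variable {X : M4} {U : Opens X.M} (h : IsConnected (U : Set X.M))

/-- the inverse of the inclusion -/
def io : PartialDiffeomorph X.I X.I X.M U ∞ :=
  haveI : Nonempty U := h.nonempty.to_subtype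
  (isOE_val U).pd.symm

theorem io_src : (io h).source = U := Subtype.range_coe

theorem io_val {x : X.M} (hx : x ∈ U) : (io h x).1 = x := (io h).left_inv ((io_src h).ge hx)

theorem pos_val (X : M4) (U : Opens X.M) : Pos X.I X.I Subtype.val univ (subO X U) X.o :=
  pos_pm (oriOn X.ori univ) (fun y _ => (isOE_val U).loc y) (mapsTo_univ _ _)

theorem pos_io : Pos X.I X.I (io h) (io h).source X.o (subO X U) :=
  ((pos_val X U).symm (φ := (io h).symm) subset_rfl).mono fun _ hx => ⟨_, trivial, (io h).left_inv hx⟩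

/-- an end inside the open part -/
def ecS {J : Set ℝ} : ∀ {a : Option O3} (k : Ec a X J) (_ : a = none ∨ ∀ p, k.tm p ∈ J → p ∈ U), Ec a (sub X U h) J
  | none, _, _ => ()
  | some _, k, e => Geo7.push (X' := sub X U h) k (io h) (pos_io h) (fun x => Nc.tm k x.1) ((Nc.cont k).comp continuous_subtype_val)
      (fun p hp => (io_src h).ge (e.resolve_left nofun p hp)) (fun _ _ => trivial)
      fun _ hp => congrArg _ (io_val h ((io_src h).le hp))

theorem ecS_tm {J : Set ℝ} : ∀ {a : Option O3} (k : Ec a X J) (e) (x), (ecS h k e).tm x = k.tm x.1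
  | none, _, _, _ => rfl
  | some _, _, _, _ => rfl

theorem ecS_mt {J : Set ℝ} {X' : M4} {ψ : X.M → X'.M} : ∀ {a : Option O3} (k : Ec a X J) (e) (k' : Ec a X' J),
    Ec.Mt 0 ψ k k' → Ec.Mt 0 (fun x : (sub X U h).M => ψ x.1) (ecS h k e) k'
  | none, _, _, _, _ => trivial
  | some _, k, e, _, m => fun y t ht r => (congrArg ψ (io_val h (e.resolve_left nofun _
      ((Geo7.tm_k k y ht).symm.subst (motive := (· ∈ J)) ht)))).trans (m y t ht r)

end sub

variable {v v0 : ℝ → Z2} {Y : O3} {X X0 : M4}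

/-- the radius -/
abbrev rr (v : ℝ → Z2) : Rod53.X torT v → ℝ := torT.rr v 10

theorem rd_zero : rd 12 0 = 13 := by norm_num [rd]

theorem isOpen_rr (v : ℝ → Z2) (s : ℝ) : IsOpen {p | rr v p < s} := isOpen_lt (cont_rr v 10) continuous_const

/-- an embedding of the part `rr < 14` -/
structure Em (hv : Loc v) (X : M4) where
  φ : Rod53.X torT v → X.M
  ld : ∀ p, rr v p < 14 → IsLocalDiffeomorphAt (𝓡 4) X.I ∞ φ p
  inj : InjOn φ {p | rr v p < 14}
  pos : Pos (𝓡 4) X.I φ {p | rr v p < 14} (oc hv) X.o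
  ne : ∃ p, rr v p < 14

namespace Em

variable {hv : Loc v} {hv0 : Loc v0} (E : Em hv X) {p : Rod53.X torT v} {x : X.M}

/-- the partial diffeomorphism -/
def pd : PartialDiffeomorph (𝓡 4) X.I (Rod53.X torT v) X.M ∞ := pdOn (isOpen_rr v 14) E.ne E.ld E.inj

open Classical in
/-- the radius, cut off at `13` -/
def R (x : X.M) : ℝ := if x ∈ E.pd.target then min (rr v (E.pd.symm x)) 13 else 13

theorem R_le (x : X.M) : E.R x ≤ 13 := by
  unfold R
  split_ifs
  exacts [min_le_right _ _, le_rfl]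

theorem R_φ (h : rr v p < 14) : E.R (E.φ p) = min (rr v p) 13 :=
  (if_pos (E.pd.map_source h)).trans (congrArg (fun y => min (rr v y) 13) (E.pd.left_inv h))

theorem R_of (h : rr v p ≤ 13) : E.R (E.φ p) = rr v p := (E.R_φ (by linarith)).trans (min_eq_left h)

theorem ex (h : E.R x < 13) : ∃ p, rr v p = E.R x ∧ E.φ p = x := by
  by_cases k : x ∈ E.pd.target
  · obtain ⟨p, hp, rfl⟩ := k
    rw [E.R_φ hp] at h ⊢
    exact ⟨p, (min_eq_left ((min_lt_iff.1 h).resolve_right (lt_irrefl _)).le).symm, rfl⟩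
  · exact absurd (if_neg k) h.ne

theorem cpt {s : ℝ} (h : s < 14) : IsCompact (E.φ '' {p | rr v p ≤ s}) :=
  ((torT.isCompact_disc (c := 10) isClosed_Iic (R := s) (fun _ h => h) fun x _ => hv x).of_isClosed_subset
    (isClosed_le (cont_rr v 10) continuous_const) fun p k => ⟨tor_torT v p, k⟩).image_of_continuousOn
    (E.pd.contMDiffOn_toFun.continuousOn.mono fun _ k => k.trans_lt h)

theorem cont : Continuous E.R := continuous_iff_continuousAt.2 fun x => by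
  by_cases k : x ∈ E.pd.target
  · have n := E.pd.open_target.mem_nhds k
    exact ((((cont_rr v 10).min continuous_const).continuousAt).comp
      (E.pd.contMDiffOn_invFun.continuousOn.continuousAt n)).congr (eventually_of_mem n fun _ e => (if_pos e).symm)
  · refine (continuousAt_const (y := 13)).congr (eventually_of_mem ((E.cpt (s := 13) (by norm_num)).isClosed.isOpen_compl.mem_nhds
      fun ⟨p, h, e⟩ => k ⟨p, show rr v p < 14 by linarith [show rr v p ≤ 13 from h], e⟩) fun y e => ?_)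
    refine ((E.R_le y).eq_or_lt.resolve_right fun l => ?_).symm
    obtain ⟨p, h1, h2⟩ := E.ex l
    exact e ⟨p, (h1.trans_lt l).le, h2⟩

variable (A : AR torT v Y.Y 10 12) (h : Pos (IY Y) (𝓡 4) A.j univ (pr Y.o oR) (oc hv))

omit E in
theorem rr_j {z : Y.Y.M × ℝ} (k : 0 < z.2) : rr v (A.j z) < 13 := (A.mem z).2.trans_lt (rd_zero ▸ rd_lt.2 k)

omit E in
theorem rr_j' {z : Y.Y.M × ℝ} (k : 0 < z.2) : rr v (A.j z) < 14 := (rr_j A k).trans (by norm_num)

theorem R_j {z : Y.Y.M × ℝ} (k : 0 < z.2) : E.R (E.φ (A.j z)) = rd 12 z.2 := (E.R_of (rr_j A k).le).trans (A.mem z).2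

theorem ex_j (h1 : 12 < E.R x) (h2 : E.R x < 13) : ∃ z : Y.Y.M × ℝ, 0 < z.2 ∧ E.φ (A.j z) = x := by
  obtain ⟨p, k, rfl⟩ := E.ex h2
  obtain ⟨z, rfl⟩ := A.surj (tor_torT v p) (h1.trans_eq k.symm)
  exact ⟨z, rd_lt.1 (((A.mem z).2.symm.trans k).trans_lt (h2.trans_eq rd_zero.symm)), rfl⟩

theorem ld_j {z : Y.Y.M × ℝ} (k : 0 < z.2) : IsLocalDiffeomorphAt (IY Y) X.I ∞ (E.φ ∘ A.j) z :=
  (A.oe.loc z).comp _ _ (E.ld _ (rr_j' A k))

theorem inj_j : InjOn (E.φ ∘ A.j) (univ ×ˢ Ioi 0) := fun _ a _ b e =>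
  A.oe.inj (E.inj (rr_j' A a.2) (rr_j' A b.2) e)

include h in
theorem pos_j : Pos (IY Y) X.I (E.φ ∘ A.j) (univ ×ˢ Ioi 0) (pr Y.o oR) X.o :=
  E.pos.comp (h.mono (subset_univ _)) E.ld (fun z _ => A.oe.loc z) fun _ a => rr_j' A a.2

/-- the neck -/
def n : Nc Y X (Ioo 0 4) :=
  mkN (E.φ ∘ A.j) (fun x => ct 12 5 (E.R x)) ((continuous_ct 12 5).comp E.cont) isOpen_Ioo
    (fun _ k => E.ld_j A k.2.1) ((E.inj_j A).mono (prod_mono_right Ioo_subset_Ioi_self))
    (fun _ k => (congrArg _ (E.R_j A k.2.1)).trans (ct_rd (by linarith [k.2.2])))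
    (fun x k => by
      have k1 := (ct_lt (by norm_num)).1 k.2
      obtain ⟨z, h1, rfl⟩ := E.ex_j A ((lt_rd 12 4).trans k1) (rd_zero ▸ (lt_ct (by norm_num)).1 k.1)
      rw [E.R_j A h1] at k1
      exact ⟨z.1, by rw [E.R_j A h1, ct_rd (by linarith [rd_lt.1 k1])]; rfl⟩)
    ((E.pos_j A h).mono fun _ k => ⟨trivial, k.2.1⟩)

/-- the complement of the cap -/
def U : Opens X.M := ⟨{x | 12 < E.R x}, isOpen_lt continuous_const E.cont⟩

theorem j_mem {z : Y.Y.M × ℝ} (k : 0 < z.2) : E.φ (A.j z) ∈ E.U := (lt_rd 12 z.2).trans_eq (E.R_j A k).symm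

include A in
theorem conn : IsConnected (E.U : Set X.M) := by
  refine ⟨⟨_, E.j_mem A (z := (Classical.arbitrary _, 1)) one_pos⟩, Nv5.pre_left (V := {x | E.R x < 13}) E.U.isOpen
    (isOpen_lt E.cont continuous_const) (fun x => (lt_or_ge 12 (E.R x)).imp_right fun k => k.trans_lt (by norm_num)) ?_⟩
  convert (isPreconnected_univ.prod isPreconnected_Ioi).image (E.φ ∘ A.j) fun z k =>
    (E.ld_j A k.2).contMDiffAt.continuousAt.continuousWithinAt
  refine Subset.antisymm (fun x k => (E.ex_j A k.1 k.2).imp fun z e => ⟨⟨trivial, e.1⟩, e.2⟩) ?_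
  rintro _ ⟨z, k, rfl⟩
  exact ⟨E.j_mem A k.2, (E.R_j A k.2).trans_lt (rd_zero ▸ rd_lt.2 k.2)⟩

/-- the manifold -/
abbrev LM : M4 := sub X E.U (E.conn A)

theorem tm_lt {t : ℝ} (k : 12 < E.R x) : -Real.log (E.R x - 12) < t ↔ rd 12 t < E.R x := by
  rw [← rd_lt (ρ := 12), rd_log k]

theorem lt_tm {t : ℝ} (k : 12 < E.R x) : t < -Real.log (E.R x - 12) ↔ E.R x < rd 12 t := by
  rw [← rd_lt (ρ := 12), rd_log k]

/-- the end at the cap -/
def k3 : Nc Y (E.LM A) (Ioi 0) :=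
  have m : ∀ z ∈ univ ×ˢ Ioi (0 : ℝ), (E.φ ∘ A.j) z ∈ (io (E.conn A)).source := fun _ k =>
    (io_src _).ge (E.j_mem A k.2)
  have l : ∀ z ∈ univ ×ˢ Ioi (0 : ℝ), IsLocalDiffeomorphAt (IY Y) X.I ∞ (io (E.conn A) ∘ E.φ ∘ A.j) z :=
    fun z k => (E.ld_j A k.2).comp _ _ (ldp _ (m z k))
  have o : Pos (IY Y) X.I (io (E.conn A) ∘ E.φ ∘ A.j) (univ ×ˢ Ioi 0) (pr Y.o oR) (subO X E.U) :=
    (pos_io _).comp (E.pos_j A h) (fun _ => ldp _) (fun _ k => E.ld_j A k.2) m
  mkN (X := E.LM A) (io (E.conn A) ∘ E.φ ∘ A.j) (fun x : E.U => -Real.log (E.R x.1 - 12))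
    (((E.cont.comp continuous_subtype_val).sub continuous_const).log fun x : E.U => (sub_pos.2 (show 12 < E.R x.1 from x.2)).ne').neg isOpen_Ioi
    l ((io (E.conn A)).injOn.comp (E.inj_j A) m)
    (fun z k => by rw [comp_apply, comp_apply, io_val _ (E.j_mem A k.2), E.R_j A k.2]; simp [rd])
    (fun x k => by
      obtain ⟨z, h1, e⟩ := E.ex_j A x.2 (rd_zero ▸ (E.lt_tm x.2).1 k)
      refine ⟨z.1, Subtype.ext ?_⟩
      rw [← e, E.R_j A h1, show -Real.log (rd 12 z.2 - 12) = z.2 by simp [rd]]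
      exact io_val _ (E.j_mem A h1)) o

theorem k3_tm (x : (E.LM A).M) : (E.k3 A h).tm x = -Real.log (E.R x.1 - 12) := rfl

theorem k3_k {z : Y.Y.M × ℝ} (k : 0 < z.2) : ((E.k3 A h).k z).1 = E.φ (A.j z) := io_val (E.conn A) (E.j_mem A k)

theorem k3_le {x : (E.LM A).M} (k : ¬E.R x.1 < 13) : (E.k3 A h).tm x ≤ 0 :=
  not_lt.1 fun e => k (rd_zero ▸ (E.lt_tm x.2).1 e)

variable {a b : Option O3} (e : En2 a b X) (c : ∀ x, E.R x < 13 → x ∈ e.pm.Core)

include c in
theorem mem_i (p : X.M) (k : e.ki.tm p < 0) : ¬E.R p < 13 := fun l => k.not_ge (c p l).1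

include c in
theorem mem_o (p : X.M) (k : 0 < e.ko.tm p) : ¬E.R p < 13 := fun l => k.not_ge (c p l).2.1

/-- the complement of the cap as a piece -/
abbrev L : Pm a b (some Y) where
  X := E.LM A
  ki := ecS (E.conn A) e.ki (.inr fun p k => show 12 < E.R p by linarith [not_lt.1 (E.mem_i e c p k)])
  ko := ecS (E.conn A) e.ko (.inr fun p k => show 12 < E.R p by linarith [not_lt.1 (E.mem_o e c p k)])
  k3 := E.k3 A h
  io p := by simpa only [ecS_tm] using e.io p.1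
  i3 p k := E.k3_le A h (E.mem_i e c _ (ecS_tm _ _ _ p ▸ k))
  o3 p k := E.k3_le A h (E.mem_o e c _ (ecS_tm _ _ _ p ▸ k))
  cpt T := by
    refine IsInducing.subtypeVal.isCompact_iff.2 ((e.cpt |T|).of_isClosed_subset ?_ ?_)
    · convert ((isClosed_le (continuous_const (y := -T)) (Geo7.ec_cont e.ki)).inter ((isClosed_le (Geo7.ec_cont e.ko)
        (continuous_const (y := T))).inter (isClosed_le (continuous_const (y := rd 12 T)) E.cont)))
      refine Subset.antisymm ?_ fun x k => ⟨⟨x, (lt_rd 12 T).trans_le k.2.2⟩, ⟨k.1.trans_eq (ecS_tm _ _ _ _).symm,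
        (ecS_tm _ _ _ _).trans_le k.2.1, not_lt.1 fun l => ((E.lt_tm (by exact (lt_rd 12 T).trans_le k.2.2)).1 l).not_ge k.2.2⟩, rfl⟩
      rintro _ ⟨x, k, rfl⟩
      exact ⟨k.1.trans_eq (ecS_tm _ _ _ x), (ecS_tm _ _ _ x).symm.trans_le k.2.1, not_lt.1 fun l => ((E.lt_tm x.2).2 l).not_ge k.2.2⟩
    · rintro _ ⟨x, k, rfl⟩
      exact ⟨(neg_le_neg (le_abs_self T)).trans (k.1.trans_eq (ecS_tm _ _ _ x)),
        ((ecS_tm _ _ _ x).symm.trans_le k.2.1).trans (le_abs_self T), abs_nonneg T⟩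
  nb := 0
  bx := Fin.elim0
  src j := j.elim0
  core j := j.elim0

end Em

/-- the complements of two caps are the same -/
structure Tr {hv : Loc v} {hv0 : Loc v0} (E : Em hv X) (E0 : Em hv0 X0) (A : AR torT v Y.Y 10 12)
    (A0 : AR torT v0 Y.Y 10 12) (ψ : X.M → X0.M) : Prop where
  ld : ∀ x ∈ E.U, IsLocalDiffeomorphAt X.I X0.I ∞ ψ x
  bij : BijOn ψ E.U E0.U
  pos : Pos X.I X0.I ψ E.U X.o X0.o
  ov : ∀ z : Y.Y.M × ℝ, 0 < z.2 → ψ (E.φ (A.j z)) = E0.φ (A0.j z)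

theorem Tr.refl {hv : Loc v} (E : Em hv X) (A : AR torT v Y.Y 10 12) : Tr E E A A id :=
  ⟨fun x _ => Cyl58.ld_id x, bijOn_id _, pos_id.2 (oriOn X.ori _).same, fun _ _ => rfl⟩

namespace Tr

variable {hv : Loc v} {hv0 : Loc v0} {E : Em hv X} {E0 : Em hv0 X0} {A : AR torT v Y.Y 10 12}
  {A0 : AR torT v0 Y.Y 10 12} {ψ : X.M → X0.M} (T : Tr E E0 A A0 ψ)
  (h : Pos (IY Y) (𝓡 4) A.j univ (pr Y.o oR) (oc hv)) (h0 : Pos (IY Y) (𝓡 4) A0.j univ (pr Y.o oR) (oc hv0))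

include T in
theorem R {x : X.M} (k : x ∈ E.U) : E0.R (ψ x) = E.R x := by
  rcases (E.R_le x).lt_or_eq with l | l
  · obtain ⟨z, h1, rfl⟩ := E.ex_j A k l
    rw [T.ov z h1, E.R_j A h1, E0.R_j A0 h1]
  · refine ((E0.R_le _).eq_or_lt.resolve_right fun l' => ?_).trans l.symm
    obtain ⟨z, h1, e⟩ := E0.ex_j A0 (T.bij.mapsTo k) l'
    rw [← T.bij.injOn (E.j_mem A h1) k ((T.ov z h1).trans e), E.R_j A h1] at l
    exact (rd_zero ▸ rd_lt.2 h1 : rd 12 z.2 < 13).ne l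

/-- the gluing -/
def gl : Gl3 (E.k3 A h) (kc hv0 A0 h0) X0 :=
  have l1 : ∀ x : E.U, IsLocalDiffeomorphAt X.I X0.I ∞ (ψ ∘ Subtype.val) x := fun x =>
    ((isOE_val E.U).loc x).comp _ _ (T.ld _ x.2)
  have r1 : ∀ p, -4 < (kc hv0 A0 h0).tm p → rr v0 p < 13 := fun p k =>
    rd_zero ▸ (lt_ct (a := 5) (by norm_num)).1 (by linarith [kc_tm hv0 A0 h0 p])
  have r2 : ∀ p, -4 < (kc hv0 A0 h0).tm p → rr v0 p < 14 := fun p k => (r1 p k).trans (by norm_num)
  haveI : Nonempty E.U := (E.conn A).nonempty.to_subtype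
  let l : PartialDiffeomorph X.I X0.I E.U X0.M ∞ := pdOf (fun x : E.U => ψ x.1) ((isOpen_Iio (a := 4)).preimage (E.k3 A h).cont)
      ((isOpen_Iio (a := 4)).preimage (E0.n A0 h0).cont)
      (fun x _ => l1 x) ⟨fun x k => (ct_lt (by norm_num)).2 (T.R x.2 ▸ (E.tm_lt x.2).1 k),
        fun x _ y _ e => Subtype.ext (T.bij.injOn x.2 y.2 e), fun z k => by
          have k1 := (ct_lt (by norm_num)).1 k
          obtain ⟨x, hx, rfl⟩ := T.bij.surjOn ((lt_rd 12 4).trans k1)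
          exact ⟨⟨x, hx⟩, (E.tm_lt hx).2 (T.R hx ▸ k1), rfl⟩⟩
  { n := E0.n A0 h0
    l := l
    r := pdOf E0.φ ((isOpen_Ioi (a := -4)).preimage (kc hv0 A0 h0).cont)
      ((isOpen_Ioi (a := 0)).preimage (E0.n A0 h0).cont)
      (fun p k => E0.ld p (r2 p k)) ⟨fun p k => (lt_ct (by norm_num)).2
        ((E0.R_of (r1 p k).le).trans_lt (rd_zero ▸ r1 p k)), E0.inj.mono r2,
        fun z k => by
          obtain ⟨p, e, rfl⟩ := E0.ex (rd_zero ▸ (lt_ct (by norm_num)).1 k)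
          exact ⟨p, show -4 < ct 12 5 (rr v0 p) - 4 by linarith [show 0 < ct 12 5 _ from k, congrArg (ct 12 5) e],
            rfl⟩⟩
    ls := rfl
    lt := rfl
    rs := rfl
    rt := rfl
    pl := (T.pos.comp (pos_val X E.U) T.ld (fun x _ => (isOE_val E.U).loc x) fun x _ => x.2).mono (subset_univ _)
    pr := E0.pos.mono r2
    ol := fun y t k => (congrArg ψ (E.k3_k A h (z := (y, t)) k.1)).trans (T.ov _ k.1)
    or := fun y t _ => congrArg (fun s => E0.φ (A0.j (y, s))) (sub_add_cancel t 4) }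

variable {a b : Option O3} {e : En2 a b X} {e0 : En2 a b X0} (c : ∀ x, E.R x < 13 → x ∈ e.pm.Core)
  (mi : Ec.Mt 0 ψ e.ki e0.ki) (mo : Ec.Mt 0 ψ e.ko e0.ko)

/-- **the capping** -/
def cp : Cp3 (E.L A h e c) (cap hv0 A0 h0) e0.pm :=
  ⟨T.gl h h0, ecS_mt _ _ _ _ mi, ecS_mt _ _ _ _ mo, rfl, rfl, rfl⟩

end Tr

end Crest.Agent.X212.Cut19
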