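import Crest.Agent.X212.Cut19.Stm
import Crest.Agent.X212.Geo7.Re

/-!
# Row 212, layer GEO (helper19): the timed manifolds of a pentagon

`Fam` : seven timed manifolds; the necks are over the times `(3, 7)`, `(13, 17)`, the ends over `t < -6`, `26 < t`,
the middle part over `(-10, 30)` is a rod manifold.  `QStmt`, `NStmt` : the two instances.
-/

set_option autoImplicit false
set_option linter.unusedSectionVars false

open Set Filter Topology Function Metric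
open scoped ContDiff Manifold Real
open Crest.Agent.X212.Bor5.T Crest.Agent.X212.Geo28
open Crest.Agent.X212.Orx52 (Pos TPos pr oR)
open Crest.Agent.X212.Rod53 (Z2 Loc wd PM fn ac dt)
open Crest.Agent.X212.Dr59 (Cs HZ Bd)
open Crest.Agent.X212.Cyl58 (TIso)
open Crest.Agent.X212.Pen22 (Hw)

noncomputable section

namespace Crest.Agent.X212.Cut19

/-- positive isomorphisms over `J` -/
structure TI (Z Z' : W4) (J : Set ℝ) where
  k : TIso Z.X Z'.X J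
  p : TPos k Z.o Z'.o

/-- positive product regions over `J` -/
structure NK (A : O3) (Z : W4) (J : Set ℝ) where
  k : TIso A.cyl Z.X J
  p : TPos k (pr A.o oR) Z.o

/-- a product region, or bounded time -/
def Ei (a : Option O3) (Z : W4) (J : Set ℝ) : Type :=
  match a with
  | none => PLift (∃ s t, ∀ x, Z.X.τ x ∈ J → Z.X.τ x ∈ Icc s t)
  | some A => NK A Z J

variable {Z Z' Z'' : W4} {J J' : Set ℝ} {A : O3} {a b : Option O3} {s t : ℝ}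

instance : CoeFun (TI Z Z' J) fun _ => Z.M → Z'.M := ⟨fun l => l.k⟩

instance : CoeFun (NK A Z J) fun _ => A.Y.M × ℝ → Z.M := ⟨fun l => l.k⟩

/-- restriction followed by composition -/
def TI.trans (l : TI Z Z' J) (l' : TI Z' Z'' J') (hJ : IsOpen J) (h : J ⊆ J') : TI Z Z'' J :=
  ⟨l.k.trans (l'.k.restr hJ h), l.p.trans (l'.p.restr hJ h)⟩

/-- transport of a product region -/
def NK.map (k : NK A Z J) (l : TI Z Z' J') (hJ : IsOpen J) (h : J ⊆ J') : NK A Z' J :=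
  ⟨k.k.trans (l.k.restr hJ h), k.p.trans (l.p.restr hJ h)⟩

/-- transport of an end -/
def Ei.map : ∀ {a : Option O3}, Ei a Z J → TI Z Z' J' → IsOpen J → J ⊆ J' → Ei a Z' J
  | none, k, l, _, h => ⟨let ⟨s, t, e⟩ := k.down; ⟨s, t, fun _ hx => let ⟨y, e1, _⟩ := l.k.surj (h hx)
      e1 ▸ e y (e1 ▸ hx)⟩⟩
  | some _, k, l, hJ, h => NK.map k l hJ h

/-- the normalised chart -/
def Ei.ec : ∀ {a : Option O3}, Ei a Z J' → ∀ s : ℝ, IsOpen J → (∀ t ∈ J, t + s ∈ J') → Ec a (m4 Z) J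
  | none, _, _, _, _ => ()
  | some _, k, s, hJ, m => nc (NK.k k) (NK.p k) s hJ m

theorem Ei.tm_or : ∀ {a : Option O3} (k : Ei a Z J') (s : ℝ) (hJ : IsOpen J) (m),
    (∀ x, (k.ec s hJ m).tm x = Z.X.τ x - s) ∨
      ((∀ x, (k.ec s hJ m).tm x = 0) ∧ ∃ s t, ∀ x, Z.X.τ x ∈ J' → Z.X.τ x ∈ Icc s t)
  | none, k, _, _, _ => .inr ⟨fun _ => rfl, k.down⟩
  | some _, _, _, _, _ => .inl fun _ => rfl

/-- the incoming end -/
abbrev Ei.i (k : Ei a Z (Iio s)) : Ec a (m4 Z) (Iio 0) := k.ec s isOpen_Iio fun _ h => add_lt_of_neg_left s h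

/-- the outgoing end -/
abbrev Ei.o (k : Ei a Z (Ioi s)) : Ec a (m4 Z) (Ioi 0) := k.ec s isOpen_Ioi fun _ h => lt_add_of_pos_left s h

theorem Ei.i_neg (k : Ei a Z (Iio s)) {x : Z.M} (h : k.i.tm x < 0) : Z.X.τ x < s :=
  (k.tm_or s _ _).elim (fun e => sub_neg.1 (e x ▸ h)) fun e => absurd (e.1 x ▸ h) (lt_irrefl _)

theorem Ei.o_pos (k : Ei a Z (Ioi s)) {x : Z.M} (h : 0 < k.o.tm x) : s < Z.X.τ x :=
  (k.tm_or s _ _).elim (fun e => sub_pos.1 (e x ▸ h)) fun e => absurd (e.1 x ▸ h) (lt_irrefl _)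

theorem Ei.i_bd (k : Ei a Z (Iio s)) (T : ℝ) : ∃ c, ∀ x, -T ≤ k.i.tm x → c ≤ Z.X.τ x :=
  (k.tm_or s _ _).elim (fun e => ⟨s - T, fun x h => by linarith [e x ▸ h]⟩) fun e => let ⟨c, _, e⟩ := e.2
    ⟨min c s, fun x _ => (lt_or_ge _ s).elim (fun h => min_le_of_left_le (e x h).1) min_le_of_right_le⟩

theorem Ei.o_bd (k : Ei a Z (Ioi s)) (T : ℝ) : ∃ c, ∀ x, k.o.tm x ≤ T → Z.X.τ x ≤ c :=
  (k.tm_or s _ _).elim (fun e => ⟨s + T, fun x h => by linarith [e x ▸ h]⟩) fun e => let ⟨_, c, e⟩ := e.2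
    ⟨max c s, fun x _ => (lt_or_ge s _).elim (fun h => le_max_of_le_left (e x h).2) le_max_of_le_right⟩

/-- the piece with the core `s ≤ τ ≤ t` -/
def pc (ki : Ei a Z (Iio s)) (ko : Ei b Z (Ioi t)) (h : s ≤ t) : En2 a b (m4 Z) where
  ki := ki.i
  ko := ko.o
  io _ k := not_lt.1 fun e => ((ki.i_neg k).trans_le h).not_gt (ko.o_pos e)
  cpt T := by
    obtain ⟨c, hc⟩ := ki.i_bd T
    obtain ⟨d, hd⟩ := ko.o_bd T
    exact (Z.X.prop c d).of_isClosed_subset ((isClosed_le continuous_const (Geo7.ec_cont _)).inter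
      ((isClosed_le (Geo7.ec_cont _) continuous_const).inter (isClosed_const (p := (0 : ℝ) ≤ T))))
      fun x k => ⟨hc x k.1, hd x k.2.1⟩

theorem pc_core (ki : Ei a Z (Iio s)) (ko : Ei b Z (Ioi t)) (h : s ≤ t) {x : Z.M} (k : Z.X.τ x ∈ Icc s t) :
    x ∈ (pc ki ko h).pm.Core :=
  ⟨not_lt.1 fun e => (ki.i_neg e).not_ge k.1, not_lt.1 fun e => (ko.o_pos e).not_ge k.2, le_rfl⟩

/-- the timed manifolds of a pentagon -/
structure Fam (τ : Tub) (hc : IsPreconnected τ.T.Ex) {v v0 : ℝ → Z2} (hv : Loc v) (hv0 : Loc v0) (a : Option Q3)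
    (B C : Q3) : Type 1 where
  W1 : W4
  W2 : W4
  W3 : W4
  W12 : W4
  W23 : W4
  W : W4
  W0 : W4
  ki : Ei (vo a) W1 (Iio (-6))
  o1 : NK B.toO3 W1 (Ioi 3)
  i2 : NK B.toO3 W2 (Iio 7)
  o2 : NK C.toO3 W2 (Ioi 13)
  i3 : NK C.toO3 W3 (Iio 17)
  ko : Ei (vo a) W3 (Ioi 26)
  l12 : TI W1 W12 (Iio 7)
  r12 : TI W2 W12 (Ioi 3)
  l23 : TI W2 W23 (Iio 17)
  r23 : TI W3 W23 (Ioi 13)
  lC : TI W12 W (Iio 17)
  rC : TI W3 W (Ioi 13)
  rB : TI W23 W (Ioi 3)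
  nB : ∀ y, ∀ t ∈ Ioo (3 : ℝ) 7, l12 (o1 (y, t)) = r12 (i2 (y, t))
  nC : ∀ y, ∀ t ∈ Ioo (13 : ℝ) 17, l23 (o2 (y, t)) = r23 (i3 (y, t))
  as2 : ∀ x, W2.X.τ x ∈ Ioo (3 : ℝ) 17 → lC (r12 x) = rB (l23 x)
  as3 : ∀ x, 13 < W3.X.τ x → rB (r23 x) = rC x
  m : TI (rW τ hv hc) W (Ioo (-10) 30)
  m0 : TI (rW τ hv0 hc) W0 (Ioo (-10) 30)
  el : TI W W0 (Iio (-6))
  er : TI W W0 (Ioi 26)
  ml : ∀ x, τ.T.time v x ∈ Ioo (-10 : ℝ) (-6) → el (m x) = m0 (fn τ.T τ.T id v v0 x)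
  mr : ∀ x, τ.T.time v x ∈ Ioo (26 : ℝ) 30 → er (m x) = m0 (fn τ.T τ.T id v v0 x)

namespace Fam

variable {τ : Tub} {hc : IsPreconnected τ.T.Ex} {v v0 : ℝ → Z2} {hv : Loc v} {hv0 : Loc v0} {a : Option Q3}
  {B C : Q3} (F : Fam τ hc hv hv0 a B C)

/-- the incoming end of `W12` -/
def ki12 : Ei (vo a) F.W12 (Iio (-6)) := F.ki.map F.l12 isOpen_Iio (Iio_subset_Iio (by norm_num))

/-- the incoming end of `W` -/
def kiW : Ei (vo a) F.W (Iio (-6)) := F.ki12.map F.lC isOpen_Iio (Iio_subset_Iio (by norm_num))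

/-- the outgoing end of `W` -/
def koW : Ei (vo a) F.W (Ioi 26) := F.ko.map F.rC isOpen_Ioi (Ioi_subset_Ioi (by norm_num))

abbrev X1 : Pm (vo a) (some B.toO3) none := (pc (b := some B.toO3) F.ki F.o1 (by norm_num)).pm

abbrev X2 : Pm (some B.toO3) (some C.toO3) none :=
  (pc (a := some B.toO3) (b := some C.toO3) F.i2 F.o2 (by norm_num)).pm

abbrev X3 : Pm (some C.toO3) (vo a) none := (pc (a := some C.toO3) F.i3 F.ko (by norm_num)).pm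

abbrev X12 : Pm (vo a) (some C.toO3) none := (pc (b := some C.toO3) F.ki12
  (F.o2.map F.r12 isOpen_Ioi (Ioi_subset_Ioi (by norm_num))) (by norm_num)).pm

abbrev X23 : Pm (some B.toO3) (vo a) none := (pc (a := some B.toO3)
  (F.i2.map F.l23 isOpen_Iio (Iio_subset_Iio (by norm_num)))
  (F.ko.map F.r23 isOpen_Ioi (Ioi_subset_Ioi (by norm_num))) (by norm_num)).pm

abbrev X : Pm (vo a) (vo a) none := (pc F.kiW F.koW (by norm_num)).pm

abbrev X0 : Pm (vo a) (vo a) none :=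
  (pc (F.kiW.map F.el isOpen_Iio subset_rfl) (F.koW.map F.er isOpen_Ioi subset_rfl) (by norm_num)).pm

/-- three-forms with support in the middle part of `W0` have primitives that vanish on the ends -/
def H3 : Prop := Cut19.H3 F.X0.X (F.W0.X.τ ⁻¹' Icc (-4) 24) {p | F.X0.ki.tm p < 0 ∨ 0 < F.X0.ko.tm p}

end Fam

/-- the family at a rational homology sphere -/
structure QF {τ : Tub} {hc : IsPreconnected τ.T.Ex} {v v0 : ℝ → Z2} {hv : Loc v} {hv0 : Loc v0} {A B C : Q3}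
    (F : Fam τ hc hv hv0 (some A) B C) {a b e : Z2} (f : Fo τ A.toO3 a) (g : Fo τ B.toO3 b) (h : Fo τ C.toO3 e) :
    Prop where
  cyl : ∃ Z : Pm (some A.toO3) (some A.toO3) none, Z.IsCyl ∧ Nonempty (F.X0.Wk Z)
  h1 : HZ F.X.X.I 1 (univ : Set F.X.M)
  bd : Bd F.X.X.I 2 (univ : Set F.X.M) 3
  q1 : ∃ y, Cs F.X1.X.I 2 univ y ∧ F.X1.X.ip y y ≠ 0
  q2 : ∃ y, Cs F.X2.X.I 2 univ y ∧ F.X2.X.ip y y ≠ 0
  q3 : ∃ y, Cs F.X3.X.I 2 univ y ∧ F.X3.X.ip y y ≠ 0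
  h3 : F.H3
  w1 : Hw f g F.X1
  w2 : Hw g h F.X2
  w3 : Hw h f F.X3

/-- CUT-Q : all seven manifolds are rod manifolds, of the words `sw q b b b`, `sw b b p p`, `sw p p p q`,
`sw q b p p`, `sw b b p q`, `sw q b p q`, `sw q q q q` -/
def QStmt : Prop := H3Stmt → PhStmt → ∀ (τ : Tub) (A B C : Q3) (a b e p q : Z2) (f : Fo τ A.toO3 a)
  (g : Fo τ B.toO3 b) (h : Fo τ C.toO3 e), PM q a → PM p e → q + p = b → dt q b = -τ.σ →
  ∃ (hc : IsPreconnected τ.T.Ex) (v v0 : ℝ → Z2) (hv : Loc v) (hv0 : Loc v0) (F : Fam τ hc hv hv0 (some A) B C),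
    (∀ t, v t = ac p q (wd wN t)) ∧ (∀ t, v0 t = ac p q (wd wB t)) ∧ QF F f g h

/-- the family at the empty vertex -/
structure NF {S : Scene} {Q : Prd} {R : ℝ} (P : Pent S Q R) {hc : IsPreconnected P.τ.T.Ex}
    (F : Fam P.τ hc isN.loc isB.loc none (S.ob P.i) (S.ob P.j)) where
  φ1 : (m4 (S.cap P.C).toW4).Dif (m4 F.W1)
  ko : Ag atTop (φ1.φ ∘ (S.cap P.C).ko) F.o1
  φ0 : (m4 P.W).Dif (m4 F.W0)
  α : ℝ
  β : ℝ
  hα : α ∈ Ico P.α P.β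
  hβ : β ∈ Ioc P.α P.β
  tl : ∀ p, F.W0.X.τ (φ0.φ p) < -6 ↔ P.W.X.τ p < β
  tr : ∀ p, 26 < F.W0.X.τ (φ0.φ p) ↔ α < P.W.X.τ p
  l : ∀ p, P.W.X.τ p < β → F.W1.X.τ (φ1.φ (P.l p)) < -6 ∧ F.el (F.lC (F.l12 (φ1.φ (P.l p)))) = φ0.φ p
  h3 : F.H3

/-- CUT-N : `W0` is `P.W` with an affine change of time, the others are joins with rod manifolds -/
def NStmt : Prop := H3Stmt → ∀ (S : Scene) (Q : Prd) (R : ℝ) (P : Pent S Q R), ∃ (hc : IsPreconnected P.τ.T.Ex)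
  (F : Fam P.τ hc isN.loc isB.loc none (S.ob P.i) (S.ob P.j)), Nonempty (NF P F)

end Crest.Agent.X212.Cut19
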