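import Crest.Agent.X212.Cut19.Cap
import Crest.Agent.X212.Pen22.Defs

/-!
# Row 212, layer GEO (helper19): local reflections and the leaves of `Pen22.CutStmt`
-/

set_option autoImplicit false
set_option linter.unusedSectionVars false

open Set Filter Topology Function Metric
open scoped ContDiff Manifold Real
open Crest.Agent.R208.F (Ext)
open Crest.Agent.X212.Bor5.T Crest.Agent.X212.Geo28
open Crest.Agent.X212.Orx52 (Pos TPos pr oR oX oX_spec)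
open Crest.Agent.X212.Rod53 (Z2 Loc wd torT IsWd PM Uni mR)
open Crest.Agent.X212.Dr59 (Cs Cl Ex HZ Bd Lat ip pm psh Sm Dg dM)
open Crest.Agent.X212.Cyl58 (TIso)
open Crest.Agent.X212.Lab56 (Cls Dat)
open Crest.Agent.X212.Line51 (Ln)
open Crest.Agent.X212.Pen22 (CH Stp thm)

noncomputable section

namespace Crest.Agent.X212.Cut19

/-- `e` has support in `K`, square `-1`, and generates the second cohomology of `U` -/
abbrev L1 (X : M4) (U K : Set X.M) (e : X.Fm) : Prop :=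
  Lat X.I X.o U K (fun _ : Unit => e) (Matrix.diagonal fun _ => -1)

/-- a reflection `ψ` in a sphere of square `-1`, with the neighbourhood `U` and the dual form `e` -/
structure LR0 (X : M4) where
  ψ : M4.Dif X X
  U : Set X.M
  K : Set X.M
  e : X.Fm
  cK : IsCompact K
  off : ∀ p, p ∉ K → ψ.φ p = p
  lat : L1 X U K e
  mu : X.ip (pm X.I X.I ψ.φ e) e = 1
  hz : HZ X.I 1 (U \ K)
  rr : ∀ (c : Cls X.I U) (h : ∀ y ∈ U, IsLocalDiffeomorphAt X.I X.I ∞ (ψ.φ ∘ ψ.φ) y) (m : MapsTo (ψ.φ ∘ ψ.φ) U U),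
    c.pull h m = c

/-- determinant lines on `U` have odd degree -/
def Chr (X : M4) (U : Set X.M) (e : X.Fm) : Prop := ∀ (D : Dat X.I U) a, Ln.On X.I ⟨D.d.det, a⟩ U →
  ∃ n : ℤ, Odd n ∧ X.ip (Ln.F X.I ⟨D.d.det, a⟩) e = 2 * π * n

/-- a local reflection -/
structure LR (X : M4) extends LR0 X where
  chr : Chr X U e

/-- the rod manifold -/
def rW (τ : Tub) {v : ℝ → Z2} (hv : Loc v) (hc : IsPreconnected τ.T.Ex) : W4 where
  X := τ.T.tp hv
  mE := borel _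
  bE := @BorelSpace.mk _ _ (borel _) rfl
  ms := borel _
  bs := @BorelSpace.mk _ _ (borel _) rfl
  con := τ.T.connectedSpace hc
  o := oX hv τ.ori
  ori := (oX_spec hv τ.ori).ori

/-! ### leaves on the plumbing -/

/-- the neighbourhoods of the spheres over the rods `(0, 10)`, `(10, 20)` -/
abbrev UN (s : Bool) : Set N0.M := torT.disc (wd wN) (cond s 15 5) (Iio 7)

/-- `e` is dual to the sphere, up to sign -/
def Gn (s : Bool) (e : N0.Fm) : Prop := ∃ K, L1 N0.X (UN s) K e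

/-- CUT-LN : the two reflections -/
def LnStmt : Prop := ∃ r : Bool → LR0 N0.X, (∀ s, (r s).U = UN s) ∧ N0.X.ip (r false).e (r true).e = 1

/-- CUT-CHR : determinant lines have odd degree on the exceptional spheres -/
def ChrStmt : Prop := ∀ s e, Gn s e → Chr N0.X (UN s) e

/-- CUT-CLN : the classes are a torsor under the degrees on the spheres -/
structure ClnStmt : Prop where
  inj : ∀ e : Bool → N0.Fm, (∀ s, Gn s (e s)) → ∀ (x x' : N0.L) c c', Cur x c → Cur x' c' →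
    (∀ s, N0.X.ip c (e s) = N0.X.ip c' (e s)) → x = x'
  sur : ∀ e : Bool → N0.Fm, (∀ s, Gn s (e s)) → ∀ (x : N0.L) c (n : Bool → ℤ), Cur x c →
    ∃ (x' : N0.L) (c' : N0.Fm), Cur x' c' ∧ ∀ s, N0.X.ip c' (e s) = N0.X.ip c (e s) + 4 * π * n s

/-- CUT-SPH : the sphere of the neck is the sum of the two spheres -/
def SphStmt : Prop := ∀ e : Bool → N0.Fm, (∀ s, Gn s (e s)) → N0.X.ip (e false) (e true) = 1 →
  ∃ (χ : ℝ → ℝ) (ε : ℝ), Stp χ ∧ (ε = 1 ∨ ε = -1) ∧ ∀ y, Cl N0.X.I 2 (Nc.tm (A := R0.toO3) N0.ki ⁻¹' Ioi (-4)) y →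
    N0.X.ip y (thm R0 N0.ki χ) = ε * (2 * π) * (N0.X.ip y (e false) + N0.X.ip y (e true))

/-- CUT-B : `S¹ × ℝ³` has one class, no second cohomology, and its units restrict onto those of the end -/
structure BStmt : Prop where
  one : ∃ d : B0.L, ∀ d', d' = d
  hz : HZ B0.X.I 2 (univ : Set B0.M)
  sur : ∀ u : mR.M → Circle, ContMDiff mR.I (𝓡 1) ∞ u → ∃ w : B0.M → Circle, ContMDiff B0.X.I (𝓡 1) ∞ w ∧
    ∀ y, ∀ t < (4 : ℝ), w (aB.j (y, t)) = u y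

/-! ### leaves on necks `S² × S¹` -/

/-- CUT-R3 : one torsion class -/
def R3Stmt : Prop := ∀ R : R3, ∃! c : R.L, Tor c

/-- CUT-THM : the dual of the sphere detects the second cohomology -/
def ThmStmt : Prop := ∀ (R : R3) (X : M4) (k : Nc R.toO3 X (Iio 0)) (χ : ℝ → ℝ), Stp χ →
  Cs X.I 2 (k.tm ⁻¹' Icc (-3) (-1)) (thm R k χ) ∧ ∀ J : Set ℝ, IsOpen J → J.OrdConnected → Icc (-3) (-1) ⊆ J →
    J ⊆ Iio 0 → ∀ y, Cl X.I 2 (k.tm ⁻¹' J) y → (X.ip y (thm R k χ) = 0 ↔ Ex X.I (k.tm ⁻¹' J) y)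

/-- closed three-forms with support in `K` have primitives that vanish on `Z` -/
def H3 (X : M4) (K Z : Set X.M) : Prop := ∀ η, Cs X.I 3 K η →
  ∃ γ, Sm X.I univ γ ∧ Dg 2 univ γ ∧ dM X.I γ = η ∧ ∀ p ∈ Z, γ p = 0

/-- CUT-EXT : `χ ω - γ` with `d γ = d χ ∧ ω` -/
def ExtStmt : Prop := ∀ (a : Option O3) (R : R3) (L : Pm a a (some R.toO3)) (B : Pm (some R.toO3) none none)
  (X : Pm a a none) (g : Cp3 (A := R.toO3) L B X), HZ B.X.I 2 (univ : Set B.M) →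
  H3 X.X g.n.k.target {p | X.ki.tm p < 0 ∨ 0 < X.ko.tm p} →
  Ext2 (A := R.toO3) L.k3 {p | L.ki.tm p < 0 ∨ 0 < L.ko.tm p}

/-- CUT-H3 : cylinders over rational homology spheres; necks whose two-forms extend to the left -/
structure H3Stmt : Prop where
  cyl : ∀ (A : Q3) (W : W4) (_ : TIso A.cyl W.X univ) (s t s' t' : ℝ), s' < s → t < t' →
    H3 (m4 W) (W.X.τ ⁻¹' Icc s t) (W.X.τ ⁻¹' (Ioo s' t')ᶜ)
  nv : ∀ (S : Scene) (Q : Prd) (R : ℝ) (P : Pent S Q R) (s t : ℝ), P.α < s → t < P.β →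
    H3 (m4 P.W) (P.W.X.τ ⁻¹' Icc s t) ∅

/-- CUT-NS : the sphere of the neck is not null-homologous -/
def NsStmt : Prop := ∀ (G : CG) (H : CH G) (a : Option O3) (L : Pm a a (some G.R.toO3)) (X : Pm a a none)
  (g : Cp3 (A := G.R.toO3) L G.N X), Ext2 (A := G.R.toO3) L.k3 {p | L.ki.tm p < 0 ∨ 0 < L.ko.tm p} →
  ∃ y, Cs X.X.I 2 univ y ∧ X.X.ip y (psh g.r (H.e false)) + X.X.ip y (psh g.r (H.e true)) ≠ 0

/-! ### leaves on rod manifolds -/

/-- CUT-PH : three handles between rational homology spheres -/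
structure PhStmt : Prop where
  h : ∀ (τ : Tub) (A B C : Q3) (a b e : Z2) (_ : Fo τ A.toO3 a) (_ : Fo τ B.toO3 b) (_ : Fo τ C.toO3 e), T3 τ a b e →
    ∀ (w : ℤ → Z2) (hw : IsWd w) hc, (∀ n, PM (w n) (sw a b e a n)) →
      HZ (m4 (rW τ hw.loc hc)).I 1 (univ : Set (m4 (rW τ hw.loc hc)).M) ∧
        Bd (m4 (rW τ hw.loc hc)).I 2 (univ : Set (m4 (rW τ hw.loc hc)).M) 3
  q : ∀ (τ : Tub) (A B : Q3) (a b : Z2) (_ : Fo τ A.toO3 a) (_ : Fo τ B.toO3 b), Uni a b →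
    ∀ (w : ℤ → Z2) (hw : IsWd w) hc (i : ℤ), (∀ n < i, PM (w n) a) → (∀ n, i ≤ n → PM (w n) b) →
      ∃ y, Cs (m4 (rW τ hw.loc hc)).I 2 univ y ∧ (m4 (rW τ hw.loc hc)).ip y y ≠ 0

/-- CUT-MID : the form of the middle part has rank one -/
def MidStmt : Prop := ∀ (S : Scene) (Q : Prd) (R : ℝ) (P : Pent S Q R) hc (Z : W4) (_ : CompactSpace Z.M)
  (m : TIso (rW P.τ isN.loc hc).X Z.X (Ioo (-10) 30)), TPos m (rW P.τ isN.loc hc).o Z.o →
  ∀ K E, L1 (m4 Z) (m '' P.τ.T.disc (wd wN) 5 (Iio 7)) K E → ∀ y z,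
    (∀ x ∈ ({y, z} : Set Z.Fm), Cl Z.X.P.I 2 univ x ∧ Ex Z.X.P.I (Z.X.τ ⁻¹' Iio (-6)) x ∧
      Ex Z.X.P.I (Z.X.τ ⁻¹' Ioi 26) x) → (m4 Z).ip y z = -((m4 Z).ip y E * (m4 Z).ip z E)

/-- all leaves -/
structure Lvs : Prop where
  ln : LnStmt
  chr : ChrStmt
  cln : ClnStmt
  sph : SphStmt
  b : BStmt
  r3 : R3Stmt
  thm : ThmStmt
  ext : ExtStmt
  h3 : H3Stmt
  ns : NsStmt
  ph : PhStmt
  mid : MidStmt

end Crest.Agent.X212.Cut19
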