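import Crest.Agent.X212.Cs52.Wf
import Crest.Agent.X212.Nv5.Chr
import Crest.Agent.X212.Cls19.Rfl
import Crest.Agent.X212.Dr59.Sph

/-!
# Row 212, layer GEO (helper19): the two reflections of the plumbing (`lnStmt`)
-/

set_option autoImplicit false
set_option linter.unusedSectionVars false

open Set Filter Topology Function
open scoped ContDiff Manifold Real
open Crest.Agent.X212.Line51 hiding tp Uni
open Crest.Agent.X212.Rod53 hiding sw
open Crest.Agent.X212.Dr59 Crest.Agent.X212.Cs52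
open Crest.Agent.X212.Nv5.Ch (Chs RP lab_UX)
open Crest.Agent.X212.Lab56 (Sc Cls)

noncomputable section

namespace Crest.Agent.X212.Cut19.Ln

theorem jv_wd {w : ℤ → Z2} {i j f : ℤ} {α β : Z2} (hu : Uni (w (f - 1)) (w f)) (hi : i < f) (hj : f ≤ j)
    (h1 : ∀ k, i ≤ k → k ≤ f - 1 → PM (w k) α) (h2 : ∀ k, f ≤ k → k ≤ j → PM (w k) β) {x : ℝ}
    (hx : x ∈ Ioo (i : ℝ) (j + 1)) : x ∈ Jv (wd w) α β f := by
  rcases lt_trichotomy x f with k | rfl | k
  · exact Jv.of_left (Ioo_subset_Jr' h1 ⟨hx.1, by simpa using k⟩) k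
  · exact Tau19.Jv_congr (mem_Jv_wd hu) (h1 _ (by omega) le_rfl) (h2 _ le_rfl hj)
  · exact Jv.of_right (Ioo_subset_Jr' h2 ⟨k, hx.2⟩) k

theorem q10 : √10 ^ 2 / 2 = 5 := by
  rw [Real.sq_sqrt (by norm_num)]
  norm_num

/-- the left vertex -/
abbrev fS (s : Bool) : ℤ := cond s 10 0

theorem sphN (s : Bool) : Tau19.Sph (wd wN) (cond s (1, 1) (1, 0)) (cond s (0, 1) (1, 1)) (cond s (-1, 0) (0, 1)) 1
    (cN s) √10 7 := by
  refine ⟨by cases s <;> exact .inl rfl, by cases s <;> rfl, by positivity, by rw [q10]; norm_num, ?_, ?_⟩ <;>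
    rw [q10] <;> intro x k
  · rw [show cN s - 5 = fS s by cases s <;> norm_num]
    refine jv_wd (i := fS s - 2) (j := fS s + 9) (by cases s <;> exact .inl rfl) (by omega) (by omega)
      (fun l a b => .inl ?_) (fun l a b => .inl ?_) (by cases s <;> norm_num at k ⊢ <;> exact k) <;>
      cases s <;> simp only [cond, sw] at a b ⊢ <;> split_ifs <;> first | omega | rfl
  · rw [show cN s + 5 = (fS s + 10 : ℤ) by cases s <;> norm_num]
    refine jv_wd (i := fS s) (j := fS s + 11) (by cases s; exacts [.inl rfl, .inr rfl]) (by omega) (by omega)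
      (fun l a b => .inl ?_) (fun l a b => ?_) (by cases s <;> norm_num at k ⊢ <;> exact k) <;>
      cases s <;> simp only [cond, sw] at a b ⊢ <;> split_ifs <;>
        first | omega | rfl | exact .inl rfl | exact .inr rfl

theorem hr6 : (6 : ℝ) ∈ Ioo (√10 ^ 2 / 2) 7 := by
  rw [q10]
  norm_num

/-- the reflections -/
abbrev tN (s : Bool) : XN ≃ₘ^∞⟮𝓡 4, 𝓡 4⟯ XN := (sphN s).tau torT (e := 2) rfl hr6

/-- orders -/
def kz (x : ℤ × ℤ × ℤ × ℤ) (n : ℤ) : ℤ :=
  if n < 0 then x.1 else if n < 10 then x.2.1 else if n < 20 then x.2.2.1 else x.2.2.2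

/-- characters -/
def ez (x : ℤ × ℤ × ℤ × ℤ) (n : ℤ) : Z2 :=
  if n < 10 then (x.1, x.2.1 - x.1) else if n < 20 then (x.2.1 - x.2.2.1, x.2.2.1) else (x.2.2.2, x.2.2.1)

/-- the reflected orders -/
def rz (s : Bool) (x : ℤ × ℤ × ℤ × ℤ) : ℤ × ℤ × ℤ × ℤ :=
  cond s (x.1, x.2.1, -x.2.2.1 + 2 * (x.2.1 - x.2.2.2), x.2.2.2) (x.1, -x.2.1 + 2 * (x.1 + x.2.2.1), x.2.2.1, x.2.2.2)

theorem rz_rz (s : Bool) (x : ℤ × ℤ × ℤ × ℤ) : rz s (rz s x) = x := by cases s <;> simp [rz]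

theorem chs_z (x : ℤ × ℤ × ℤ × ℤ) : Chs wN (kz x) (ez x) := fun l => by
  constructor <;> simp only [kz, ez, wN, sw] <;> split_ifs <;> first | omega | simp [dot]

theorem eq_kz {k : ℤ → ℤ} {η : ℤ → Z2} (h : Chs wN k η) : k = kz (k (-1), k 0, k 10, k 20) := by
  have e : ∀ l, l ≠ 0 → l ≠ 10 → l ≠ 20 → k (l - 1) - kz (k (-1), k 0, k 10, k 20) (l - 1) =
      k l - kz (k (-1), k 0, k 10, k 20) l := fun l a b c => by
    rw [← (h l).1, ← (h l).2]
    simp only [kz, wN, sw]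
    split_ifs <;> omega
  have u : ∀ n : ℕ, ∀ l : ℤ, l ∈ ({-1 - (n : ℤ), (n : ℤ)} : Set ℤ) → k l - kz (k (-1), k 0, k 10, k 20) l = 0 := fun n => by
    induction n with
    | zero => rintro _ (rfl | rfl) <;> simp [kz]
    | succ n ih =>
      rintro _ (rfl | rfl)
      · exact (congrArg (fun l => k l - kz _ l) (by push_cast; ring)).trans
          ((e (-1 - n) (by omega) (by omega) (by omega)).trans (ih _ (.inl rfl)))
      · by_cases a : (n : ℤ) + 1 = 10 ∨ (n : ℤ) + 1 = 20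
        · push_cast
          rcases a with a | a <;> simp [a, kz]
        · rw [← e _ (by omega) (by omega) (by omega)]
          exact ih _ (.inr (by simp))
  exact funext fun l => sub_eq_zero.1 (u (if l < 0 then -1 - l else l).toNat l (by
    simp only [mem_insert_iff, mem_singleton_iff]
    split_ifs <;> omega))

instance scN : SecondCountableTopology XN := torT.secondCountable isN.loc

instance sgN : SigmaCompactSpace XN := Orx52.sigmaCompact (𝓡 4) XN

theorem exL (x : ℤ × ℤ × ℤ × ℤ) : ∃ (p : XN → Matrix (Option Bool) (Option Bool) ℂ)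
    (σ : XN → Matrix (Option Bool) Unit ℂ), TL torT (wd wN) (wm wN (kz x)) p σ univ :=
  exists_TL_wd torT fun i => ⟨_, chs_z x i⟩

variable (s : Bool) (x : ℤ × ℤ × ℤ × ℤ) {O : Set XN}

theorem rep1 : ∀ t ∈ Ioo (cN s - 7) (cN s + √10 ^ 2 / 2), Rep (wd wN) (wm wN (kz x)) (ez x (fS s)) t := fun t k =>
  rep_wd (i := fS s - 2) (j := fS s + 9) (fun l a b => by
    cases s <;> simp only [kz, ez, wN, sw, cond] at a b ⊢ <;> split_ifs <;> first | omega | simp [dot])
    (by rw [q10] at k; cases s <;> norm_num at k ⊢ <;> exact k)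

theorem rep2 : ∀ t ∈ Ioo (cN s - √10 ^ 2 / 2) (cN s + 7), Rep (wd wN) (wm wN (kz x)) (ez x (fS s + 10)) t :=
  fun t k => rep_wd (i := fS s) (j := fS s + 11) (fun l a b => by
    cases s <;> simp only [kz, ez, wN, sw, cond] at a b ⊢ <;> split_ifs <;> first | omega | simp [dot])
    (by rw [q10] at k; cases s <;> norm_num at k ⊢ <;> exact k)

/-- the reflections reflect toric lines -/
theorem uni {κ l : Type} [Fintype κ] [Fintype l] (hO : IsOpen O) (hD : dN s (Iio 7) ⊆ O) {p : XN → Matrix κ κ ℂ}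
    {q : XN → Matrix l l ℂ} {σ : XN → Matrix κ Unit ℂ} {σ' : XN → Matrix l Unit ℂ}
    (hp : TL torT (wd wN) (wm wN (kz x)) p σ O) (hq : TL torT (wd wN) (wm wN (kz (rz s x))) q σ' O) :
    ∃ U, Line51.Uni (𝓡 4) q (fun y => p (tN s y)) U O ∧
      ∀ y ∈ O, y ∉ (sphN s).K torT (Tau19.rh √10 6) → y ∈ off torT (wd wN) → U y * σ' y = σ y := by
  refine (sphN s).exists_uni_TL torT rfl hr6 hO (((sphN s).image_subset_disc torT).trans hD) hp hq
    (rep1 s x) (rep2 s x) (rep1 s _) (rep2 s _) (fun t k => ?_) (by cases s <;> simp [ez, rz, dot, sub_eq_add_neg])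
  have e : ⌊t⌋ < fS s ∨ fS s + 10 ≤ ⌊t⌋ := by
    rw [Int.floor_lt, Int.le_floor]
    rw [q10, mem_Icc, not_and_or, not_le, not_le] at k
    cases s <;> norm_num at k ⊢ <;> exact k.imp_right le_of_lt
  rw [wm, wm]
  congr 1
  cases s <;> simp only [kz, rz, cond] at e ⊢ <;> split_ifs <;> omega

theorem maps : MapsTo (tN s) (dN s (Iio 7)) (dN s (Iio 7)) := fun _ k =>
  ((sphN s).tau_mem torT rfl hr6 (.inl (((sphN s).K_subset torT hr6.2).trans (dN_mono s s67)))).2 k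

theorem lab {ι κ : Type} [Fintype ι] [Fintype κ] [DecidableEq ι] [DecidableEq κ] {d : Sc (𝓡 4) XN ι κ}
    (hd : d.On (dN s (Iio 7))) (h : RP.Lab d (wm wN (kz x)) (dN s (Iio 7))) :
    RP.Lab (d.pull (𝓡 4) (tN s)) (wm wN (kz (rz s x))) (dN s (Iio 7)) := by
  obtain ⟨σ, i, h⟩ := h
  obtain ⟨q, σ', k⟩ := exL (rz s x)
  have o : IsOpen (dN s (Iio 7)) := torT.isOpen_disc isOpen_Iio
  obtain ⟨U, a, b⟩ := uni s x o subset_rfl h (k.mono (subset_univ _))
  exact Cls19.lab_tau (sphN s) rfl hr6 o subset_rfl (RP.rfx _).ok (RP.rfx _).sec hd i (k.mono (subset_univ _)) a b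

theorem rr (c : Cls (𝓡 4) (dN s (Iio 7))) (h) (m) : c.pull (f := tN s ∘ tN s) h m = c := by
  have l := fun y (_ : y ∈ dN s (Iio 7)) => (tN s).isLocalDiffeomorph y
  rw [← c.pull_pull l (maps s) l (maps s)]
  obtain ⟨D⟩ := c
  obtain ⟨k, η, a, b⟩ := lab_UX D.ok
  rw [eq_kz a] at b
  have d := D.ok.pull l (maps s)
  have e := lab s _ d (lab s _ D.ok b)
  rw [rz_rz] at e
  exact Quot.sound (Lab56.Lab.eqv (torT.isOpen_disc isOpen_Iio) (RP.rfx _) (d.pull l (maps s)) D.ok e b)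

theorem hz : HZ (𝓡 4) 1 (dN s (Iio 7) \ dN s (Iic 6)) := by
  have r := fun t => (range_sig (show (6 : ℝ) < 7 by norm_num)).le (mem_range_self t)
  have u : Uni (cond s (1, 1) (1, 0)) (cond s (-1, 0) (0, 1)) := by cases s <;> exact .inl rfl
  have A : Tb.Arc (wd wN) _ _ (cN s) (sig 6 7) := ⟨isOE_sig (by norm_num), fun t => by linarith [(r t).1],
    fun t => Jv.left ((sphN s).left _ ⟨by linarith [(r t).2], by linarith [(r t).1, q10]⟩) (by linarith [(r t).1, q10]),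
    fun t => Jv.right ((sphN s).right _ ⟨by linarith [(r t).1, q10], by linarith [(r t).2]⟩)
      (by linarith [(r t).1, q10])⟩
  have k := (hz_pd (torT.isOE_sb u A).pd (isOpen_univ.prod isOpen_univ) (subset_univ _)).2
    ((hz_sphere (d := 3) (k := 0) (by norm_num)).prod_convex isOpen_univ isOpen_univ convex_univ)
  rw [show (torT.isOE_sb u A).pd '' _ = _ from torT.image_sb u A univ, image_univ, range_sig (by norm_num)] at k
  convert k using 1
  exact Set.ext fun y => ⟨fun a => ⟨a.1.1, not_le.1 fun e => a.2 ⟨a.1.1, e⟩, a.1.2⟩,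
    fun a => ⟨⟨a.1, a.2.2⟩, fun e => a.2.1.not_ge e.2⟩⟩

theorem mu [MeasurableSpace E4] [BorelSpace E4] [MeasurableSpace XN] [BorelSpace XN] :
    ip (𝓡 4) oN (pm (𝓡 4) (𝓡 4) (tN s) (eN s)) (eN s) = 1 := by
  obtain ⟨p, σ, hp⟩ := exL (cond s (0, 0, 1, 0) (0, 1, 0, 0))
  obtain ⟨q, σ', hq⟩ := exL (rz s (cond s (0, 0, 1, 0) (0, 1, 0, 0)))
  obtain ⟨u, u1, -⟩ := uni s _ isOpen_univ (subset_univ _) hp hq
  obtain ⟨b, h1, -, h3⟩ := (wf_EN s).exists_conn (fun j => (dr_mN s j).trans (congrArg _ (by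
    cases s <;> simp only [kN, kz, cond] <;> split_ifs <;> omega))) isOpen_univ hp
  have m := Mp.of_contMDiff (tN s).contMDiff (mapsTo_univ _ (univ : Set XN))
  have w := (wc_line' (chs_z _) isOpen_univ (h1.pull m) (hq.trans isOpen_univ u1)).coh ((wf_EN s).tg.cl.pm m)
    (ex_of_zero fun y _ => sub_eq_zero.2
      ((h1.F_pull isOpen_univ isOpen_univ m (mem_univ y)).trans (pm_congr_right (h3 (mem_univ _)))).symm)
  have := ip_mN (s := s) isOpen_univ (subset_univ _) w fun j => (dr_rc2 _ _).trans (congrArg _ (chs_z _ j).2)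
  nth_rw 1 [eN]
  rw [pm_smul, ip_smul, this]
  cases s <;> simp [kz, rz] <;> field_simp

/-- the reflection data -/
def r0 : LR0 N0.X where
  ψ := ⟨tN s, (sphN s).pos_tau torT rfl hr6 ori_oN⟩
  U := UN s
  K := dN s (Iic 6)
  e := eN s
  cK := torT.isCompact_disc isClosed_Iic (fun _ h => h) fun y _ => isN.loc y
  off _ := (sphN s).tau_off_disc torT rfl hr6
  lat := @lat_eN (borel _) (@BorelSpace.mk _ _ (borel _) rfl) (borel _) (@BorelSpace.mk _ _ (borel _) rfl) _ _ s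
    subset_rfl (dN_mono s s67)
  mu := @mu s (borel _) (@BorelSpace.mk _ _ (borel _) rfl) (borel _) (@BorelSpace.mk _ _ (borel _) rfl)
  hz := hz s
  rr := rr s

/-- **CUT-LN** -/
theorem lnStmt : LnStmt := ⟨r0, fun _ => rfl,
  @ip_eN (borel _) (@BorelSpace.mk _ _ (borel _) rfl) (borel _) (@BorelSpace.mk _ _ (borel _) rfl) _ false true⟩

end Crest.Agent.X212.Cut19.Ln
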