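import Crest.Agent.X212.Cut19.Stm
import Crest.Agent.X212.Rob53.Rfl
import Crest.Agent.X212.Mv17.Gl

/-!
# Row 212, layer GEO (helper19): local reflections

* `LR.rfl` : the reflection formula;  `LR.fix` : the square fixes all classes;  `LR.rf` : the reflection of a piece;
* `LR.Ps` , `LR.exists_ps` : transport along a partial diffeomorphism.
-/

set_option autoImplicit false
set_option linter.unusedSectionVars false

open Set Filter Topology Function
open scoped ContDiff Manifold Real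
open Crest.Agent.X212.Bor5.T Crest.Agent.X212.Geo28 Crest.Agent.X212.Orx52 Crest.Agent.X212.Dr59
open Crest.Agent.X212.Lab56 (Cls Dat)
open Crest.Agent.X212.Rfl19 Crest.Agent.X212.Nvg56

noncomputable section

namespace Crest.Agent.X212.Cut19

instance sig (X : M4) : SigmaCompactSpace X.M := Orx52.sigmaCompact X.I X.M

namespace LR

variable {X X' : M4} (r : LR X) {y z : X.Fm}

theorem KU : r.K ⊆ r.U := r.lat.sub

theorem cs : Cs X.I 2 r.U r.e := r.lat.csU ()

theorem maps : MapsTo r.ψ.φ r.U r.U := Rob53.maps_of_off r.ψ.φ.injective r.off r.KU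

theorem mp : Mp X.I X.I r.U r.U r.ψ.φ := Mp.of_contMDiff r.ψ.φ.contMDiff r.maps

theorem ee : X.ip r.e r.e = -1 := r.lat.gram () ()

theorem ev {p : X.M} (h : p ∉ r.K) : r.ψ.φ =ᶠ[𝓝 p] id :=
  eventually_of_mem (r.cK.isClosed.isOpen_compl.mem_nhds h) r.off

theorem ip_pm (hy : Cl X.I 2 r.U y) : X.ip (pm X.I X.I r.ψ.φ y) r.e = -X.ip y r.e := by
  obtain ⟨l, hl⟩ : ∃ l : ℝ, Ex X.I r.U (y - l • r.e) := ⟨-X.ip y r.e, by simpa [sub_eq_add_neg] using r.lat.span hy⟩
  have he := r.cs.on r.U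
  have e1 : X.ip y r.e = l * -1 := by
    rw [M4.ip, r.cs.ip_coh X.ori hy.sm (he.smul l).sm hl, ip_smul]
    exact congrArg _ r.ee
  rw [e1, M4.ip, r.cs.ip_coh X.ori (hy.pm r.mp).sm ((he.pm r.mp).smul l).sm (by
    simpa only [pm_sub, pm_smul] using hl.pm r.mp), ip_smul]
  exact (congrArg _ r.mu).trans (by ring)

/-- **the reflection formula** -/
theorem rfl' (hy : Cl X.I 2 r.U y) (hz : Cl X.I 2 r.U z) :
    X.ip z (pm X.I X.I r.ψ.φ y - y) = 2 * X.ip y r.e * X.ip z r.e := by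
  have k : ∀ p, p ∉ r.K → (pm X.I X.I r.ψ.φ y - y) p = 0 := fun p hp =>
    sub_eq_zero.2 (pm_of_eventually_id (r.ev hp) y)
  have c := cs_indicator r.lat.op ((hy.pm r.mp).sub hy) r.cK r.KU fun p _ => k p
  rw [indicator_eq_self.2 fun p hp => r.KU (by_contra fun q => hp (k p q))] at c
  have e := r.lat.diag hz (c.mono r.KU)
  rw [Fintype.sum_unique, r.cs.ip_sub X.ori (hy.pm r.mp).sm hy.sm] at e
  have e' := r.ip_pm hy
  simp only [M4.ip] at e' ⊢
  rw [e, e']
  ring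

theorem ld2 (p : X.M) : IsLocalDiffeomorphAt X.I X.I ∞ (r.ψ.φ ∘ r.ψ.φ) p :=
  (r.ψ.φ.isLocalDiffeomorph p).comp _ _ (r.ψ.φ.isLocalDiffeomorph _)

/-- the square fixes all classes -/
theorem fix (d : X.L) : Pb (r.ψ.φ ∘ r.ψ.φ) univ d d := by
  have o := r.cK.isClosed.isOpen_compl
  refine ⟨fun p _ => r.ld2 p, Mv17.cls_inj r.lat.op o (fun p _ => (Classical.em _).imp_left fun h => r.KU h)
    (Mv17.spl_of_hz r.lat.op o r.hz) (subset_univ _) (subset_univ _) ?_ ?_⟩
  · rw [pull_res, Rfl19.res_res, ← res_pull d (subset_univ r.U) _ (r.maps.comp r.maps), r.rr]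
  · rw [pull_res, Rfl19.res_res, Cls.res_eq_pull]
    exact d.pull_congr _ _ _ _ fun p hp => eventually_of_mem (o.mem_nhds hp) fun q hq =>
      ((congrArg r.ψ.φ (r.off q hq)).trans (r.off q hq)).symm

theorem odd {d : X.L} {c : X.Fm} (h : Cur d c) : ∃ n : ℤ, Odd n ∧ X.ip c r.e = 2 * π * n := by
  obtain ⟨D, -, a, k, rfl⟩ := h
  exact r.chr ⟨_, _, D.d, D.ok.mono (subset_univ _)⟩ a (k.mono (subset_univ _))

theorem ne {d : X.L} {c : X.Fm} (h : Cur d c) : X.ip c r.e ≠ 0 := by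
  obtain ⟨n, h1, h2⟩ := r.odd h
  rw [h2]
  exact mul_ne_zero Real.two_pi_pos.ne' (Int.cast_ne_zero.2 fun e => by simp [e] at h1)

/-- positive degree -/
def half (d : X.L) : Prop := ∃ c, Cur d c ∧ 0 < X.ip c r.e

theorem half_iff {d : X.L} {c : X.Fm} (h : Cur d c) : r.half d ↔ 0 < X.ip c r.e := by
  refine ⟨fun ⟨c', k, p⟩ => p.trans_eq (r.cs.ip_coh X.ori ((cur_cl k).sm.mono (subset_univ _))
    ((cur_cl h).sm.mono (subset_univ _)) ?_), fun p => ⟨c, h, p⟩⟩
  simpa using cur_pb r.lat.op (f := id) ⟨fun p _ => Cyl58.ld_id p, (d.res_eq_pull _).symm⟩ h k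

/-- the reflected class -/
def cl (d : X.L) : X.L := d.pull (fun p _ => r.ψ.φ.symm.isLocalDiffeomorph p) (mapsTo_univ _ _)

theorem pb (d : X.L) : Pb r.ψ.φ univ (r.cl d) d := pb_symm (φ := r.ψ.φ.symm) (pb_pull _)

theorem pb' (d : X.L) : Pb r.ψ.φ univ d (r.cl d) := by
  have k := pb_comp (r.fix d) (pb_symm (r.pb d)) (mapsTo_univ _ _)
  exact pb_congr k fun p _ => Eventually.of_forall fun q => congrArg _ (r.ψ.φ.apply_symm_apply q).symm

/-- the reflection of a piece -/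
def rf {a b : Option O3} {T : Pm a b none} (r : LR T.X) (h : r.U ⊆ T.Core) : Rf T where
  toDif := r.ψ
  id p k := r.off p fun e => k (h (r.KU e))
  r := r.cl
  pb := r.pb
  rr d := pb_unique (r.pb' _) (r.pb d)
  half := r.half
  hr d := by
    obtain ⟨c, k⟩ := exists_cur (r.cl d)
    rw [r.half_iff k, r.half_iff (cur_dif (r.pb d) k), r.ip_pm ((cur_cl k).mono (subset_univ _)), neg_pos, not_lt]
    exact ⟨le_of_lt, fun e => lt_of_le_of_ne e (r.ne k).symm⟩

variable (φ : PartialDiffeomorph X.I X'.I X.M X'.M ∞)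

/-- `r'` is the image of `r` -/
structure Ps (r' : LR X') : Prop where
  sub : r.U ⊆ φ.source
  pos : Pos X.I X'.I φ φ.source X.o X'.o
  U : r'.U = φ '' r.U
  K : r'.K = φ '' r.K
  e : r'.e = psh φ r.e
  eq : ∀ p ∈ φ.source, r'.ψ.φ (φ p) = φ (r.ψ.φ p)

theorem ip_psh (hU : r.U ⊆ φ.source) (hp : Pos X.I X'.I φ φ.source X.o X'.o) (c : X'.Fm) :
    X'.ip c (psh φ r.e) = X.ip (pm X.I X'.I φ c) r.e :=
  r.cs.ip_psh φ hU X'.ori X.ori (same_symm (hp.mono hU)) c

theorem exists_ps (hU : r.U ⊆ φ.source) (hp : Pos X.I X'.I φ φ.source X.o X'.o) : ∃ r', r.Ps φ r' := by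
  have hK := r.KU.trans hU
  obtain ⟨ρ, r1, r2, r3⟩ := Rob53.exists_cj φ r.ψ.φ r.off r.cK hK X'.ori hp r.ψ.pos
  have l := fun p (h : p ∈ r.U) => ldp φ (hU h)
  have m : MapsTo φ r.U (φ '' r.U) := mapsTo_image _ _
  have o := pd_open φ r.lat.op hU
  refine ⟨⟨⟨⟨ρ, r1⟩, φ '' r.U, φ '' r.K, psh φ r.e,
    r.cK.image_of_continuousOn (φ.contMDiffOn_toFun.continuousOn.mono hK), r3,
    r.lat.push φ hU X'.ori (same_symm (hp.mono hK)), ?_, ?_, fun c h n => ?_⟩, fun D a k => ?_⟩,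
    hU, hp, rfl, rfl, rfl, r2⟩
  · refine (r.ip_psh φ hU hp _).trans ((r.cs.ip_congr fun y hy => ?_).trans r.mu)
    exact (pm_comp_ld (ρ.isLocalDiffeomorph _) (l _ hy)).symm.trans ((pm_congr (g := φ ∘ r.ψ.φ)
      (eventually_of_mem (φ.open_source.mem_nhds (hU hy)) r2) rfl).trans
      ((pm_comp_ld (l _ (r.maps hy)) (r.ψ.φ.isLocalDiffeomorph _)).trans
        (pm_congr_right (pm_psh _ (hU (r.maps hy)) r.e))))
  · rw [← (φ.injOn.mono hU).image_sdiff_subset r.KU]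
    exact (hz_pd φ (r.lat.op.sdiff r.cK.isClosed) (sdiff_subset.trans hU)).2 r.hz
  · have l' := fun p (h : p ∈ φ '' r.U) => ldp φ.symm (φ.toPartialEquiv.image_source_eq_target ▸ image_mono hU h)
    have m' := (pd_mp_symm φ hU).maps
    have b := fun c : Cls X'.I (φ '' r.U) => (pull_back c l m l' m' subset_rfl fun p hp =>
      Mv17.ev_r φ (φ.toPartialEquiv.image_source_eq_target ▸ image_mono hU hp)).trans (Rfl19.res_self _ _)
    have e : (c.pull h n).pull l m = c.pull l m := by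
      refine Eq.trans ?_ (r.rr (c.pull l m) (fun p _ => r.ld2 p) (r.maps.comp r.maps))
      rw [Cls.pull_pull, Cls.pull_pull]
      exact c.pull_congr _ _ _ _ fun p hp => eventually_of_mem (r.lat.op.mem_nhds hp) fun q hq =>
        ((congrArg ρ (r2 q (hU hq))).trans (r2 _ (hU (r.maps hq)))).symm
    exact (b _).symm.trans ((congrArg (Cls.pull l' m') e).trans (b c))
  · obtain ⟨n, h1, h2⟩ := r.chr ⟨_, _, _, D.ok.pull l m⟩ _ (k.pull (pd_mp φ hU))
    exact ⟨n, h1, (r.ip_psh φ hU hp _).trans ((r.cs.ip_congr fun y hy =>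
      (k.F_pull o r.lat.op (pd_mp φ hU) hy).symm).trans h2)⟩

variable {r φ} {r' : LR X'}

theorem Ps.half (h : r.Ps φ r') {d : X.L} {d' : X'.L} (k : Pb φ r.U d' d) : r'.half d' ↔ r.half d := by
  obtain ⟨c, a⟩ := exists_cur d
  obtain ⟨c', a'⟩ := exists_cur d'
  rw [r'.half_iff a', r.half_iff a, h.e, r.ip_psh φ h.sub h.pos, M4.ip, r.cs.ip_coh X.ori
    ((cur_cl a').pm ((pd_mp φ h.sub).mono subset_rfl (subset_univ _))).sm ((cur_cl a).sm.mono (subset_univ _))
    (cur_pb r.lat.op k a a')]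

theorem Ps.tgt (h : r.Ps φ r') : r'.U ⊆ φ.target := h.U ▸ (image_mono h.sub).trans φ.image_source_eq_target.le

/-- the inverse transport -/
theorem exists_ps' (r' : LR X') (φ : PartialDiffeomorph X.I X'.I X.M X'.M ∞) (hU : r'.U ⊆ φ.target)
    (hp : Pos X.I X'.I φ φ.source X.o X'.o) : ∃ r : LR X, r.Ps φ r' := by
  have s := hp.symm subset_rfl
  rw [φ.image_source_eq_target] at s
  obtain ⟨r, h⟩ := r'.exists_ps φ.symm hU s
  have i : ∀ S ⊆ r'.U, S = φ '' (φ.symm '' S) := fun S k =>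
    (φ.toPartialEquiv.image_symm_image_of_subset_target (k.trans hU)).symm
  have m := Rob53.maps_of_off r'.ψ.φ.injective r'.off (r'.KU.trans hU)
  refine ⟨r, h.tgt, hp, h.U ▸ i _ subset_rfl, h.K ▸ i _ r'.KU, funext fun x => ?_, fun p k => ?_⟩
  · rw [h.e]
    by_cases k : x ∈ φ.target
    · exact (pm_psh φ.symm k _).symm.trans (indicator_of_mem k _).symm
    · exact (r'.cs.eq_zero fun e => k (hU e)).trans (indicator_of_notMem k _).symm
  · have e := h.eq _ (φ.map_source k)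
    rw [show φ.symm (φ p) = p from φ.left_inv k] at e
    rw [e]
    exact (φ.right_inv (m (φ.map_source k))).symm

end LR

end Crest.Agent.X212.Cut19
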