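import Crest.Agent.X212.Cut19.Cut
import Crest.Agent.X212.Cut19.Fam

/-!
# Row 212, layer GEO (helper19): the plumbing in the middle part, the gluings of a family

* `emb` : the toric cap in a manifold whose middle part is a rod manifold;  `Fam.tr` : the two fillings;
* `gl3`, `Fam.g12`, `Fam.g23`, `Fam.gC`, `Fam.gB` : the compositions.
-/

set_option autoImplicit false
set_option linter.unusedSectionVars false

open Set Filter Topology Function Metric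
open scoped ContDiff Manifold
open Crest.Agent.X212.Bor5.T Crest.Agent.X212.Orx52 Crest.Agent.X212.Rod53 Crest.Agent.X212.Geo28
open Crest.Agent.X212.Cyl58 (TIso)

noncomputable section

namespace Crest.Agent.X212.Cut19

section em

variable {τ : Tub} {p q : Z2} {v v' : ℝ → Z2} (hd : dt p q = τ.σ) (hv : Loc v) (ev : ∀ t, v t = ac p q (v' t))
include hd

theorem uni_of : Uni p q := show dt p q = 1 ∨ dt p q = -1 from hd ▸ τ.hσ

include ev in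
omit hd in
theorem em_ag (x : X torT v') : x ∈ torT.agG v' v p q := .inr (by simp [ev])

include hv ev

theorem em_ld (x : X torT v') : IsLocalDiffeomorphAt (𝓡 4) (𝓡 4) ∞ (em v v' p q τ.T) x :=
  (tc τ.T (uni_of hd)).ld_fg hv (em_ag ev x)

theorem em_nf (x : X torT v') : τ.T.nf v (em v v' p q τ.T x) = nfG (τ.T.τ ∘ gl p q) p q (torT.nf v' x) :=
  (tc τ.T (uni_of hd)).nf_fg hv (em_ag ev x)

theorem em_time (x : X torT v') : τ.T.time v (em v v' p q τ.T x) = torT.time v' x :=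
  (tc τ.T (uni_of hd)).time_fg hv (em_ag ev x)

theorem em_disc {c : ℝ} {S : Set ℝ} {x : X torT v'} : em v v' p q τ.T x ∈ τ.T.disc v c S ↔ torT.rr v' c x ∈ S := by
  have k := fun Z f d => (tc τ.T (uni_of hd)).hf_fg hv (Z := Z) f d (em_ag ev x)
  rw [Tb.mem_disc, Tb.rr, Tb.rr, em_time hd hv ev, show τ.T.yy v (em v v' p q τ.T x) = torT.yy v' x from k _ _ _]
  exact and_iff_right ((k _ _ _).mpr (tor_torT v' x))

theorem em_inj : Injective (em v v' p q τ.T) := fun x y e => by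
  have k := (em_nf hd hv ev x).symm.trans (e ▸ em_nf hd hv ev y)
  refine torT.nf_injective v' ?_
  rcases torT.nf_cases x with ⟨z, hz, -, e1⟩ | ⟨-, s, e1⟩ <;>
    rcases torT.nf_cases y with ⟨z', hz', -, e2⟩ | ⟨-, s', e2⟩ <;> rw [e1, e2] at k ⊢
  · obtain ⟨k1, k2⟩ := Prod.ext_iff.1 (Sum.inl_injective k)
    exact congrArg _ (Prod.ext (gl_inj (uni_of hd) ((torT.τ_mem (w := z)).1 hz) ((torT.τ_mem (w := z')).1 hz')
      (τ.T.inj k1)) k2)
  · cases k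
  · cases k
  · obtain ⟨k1, k2⟩ := Prod.ext_iff.1 (Sum.inr_injective k)
    exact congrArg _ (Prod.ext k1 (zpow_uni_injective (by have := τ.hσ; omega) k2))

omit hv in
theorem em_surj {y : X τ.T v} (hy : y ∈ τ.T.tor v) : ∃ x, em v v' p q τ.T x = y := by
  have u := uni_of hd
  have h := tc τ.T u
  have i : ∀ x, x ∈ interior {t | v t = ac p q (v' t)} := fun x => by simp [ev]
  induction y using τ.T.ind with
  | h1 y x k =>
    obtain ⟨w, rfl⟩ := (τ.T.ext_mem_tor (p := (y, x)) k).1 hy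
    have w0 := τ.T.τ_mem.1 k
    exact ⟨_, (h.fg_ext (y := (glI p q w, x)) ((torT.τ_mem (w := glI p q w)).2 (gl_ne.2 w0))).trans
      (congrArg (fun z => τ.T.ext v (τ.T.τ z, x)) (gl_glI u w0))⟩
  | h2 a b hu c x hx =>
    refine ⟨_, (h.fg_rod (u.du.ac hu) (w := ((c, 0), x)) (.inr (Jr_ac hx (TG.int_du u (i x)))) (.inr (i x))).trans ?_⟩
    rw [ac_du u, ac_du u, τ.T.rn_eq_rod hu (.inr hx)]
  | h3 a b hu c hc =>
    refine ⟨_, (h.fg_vtx (u.du.ac hu) (TC.mem_Uv (Tb.zero_mem_Uv hc) (.inr (TG.int_du u (i _)))) (.inr (i _))).trans ?_⟩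
    rw [ac_du u, ac_du u, τ.T.vn_eq_vtx hu (Tb.zero_mem_Uv hc)]

theorem em_pos (hv' : Loc v') : Pos (𝓡 4) (𝓡 4) (em v v' p q τ.T) univ (oc hv') (oX hv τ.ori) := by
  have u := uni_of hd
  have h := tc τ.T u
  have e : ∀ z, z ∈ torT.Ex → z.2 ≠ 0 := fun z => (torT.τ_mem (w := z)).1
  have g : Pos IT τ.N.I (τ.T.τ ∘ gl p q) torT.Ex (-oT) τ.o := by
    have k := τ.pos.comp ((pos_gl u).smul (c := τ.σ) (hd ▸ dt_ne u)) (fun y _ => τ.T.ld y) (fun _ => ld_gl u)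
      fun _ => gl_ne.2
    rw [smul_smul, hd, mul_neg, ← Int.cast_mul, show τ.σ * τ.σ = 1 by rcases τ.hσ with e | e <;> simp [e],
      Int.cast_one, neg_smul, one_smul] at k
    exact k.mono e
  refine (oX_spec hv' ori_tor).pos_of isOpen_univ (fun x _ => em_ld hd hv ev x) (oX_spec hv τ.ori).ori
    (Pos.mono ?_ inter_subset_left)
  exact ((oX_spec hv τ.ori).ext.comp (g.prodMap pos_R h.ld fun z _ => Glue52.ld_id z) (fun _ => ldp (τ.T.ext v))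
    (fun z k => Cyl58.ld_prodMap (h.ld _ k.1) (Glue52.ld_id z.2)) fun z k => ⟨h.maps k.1, trivial⟩).congr
    (torT.isOpen_Ex.prod isOpen_univ) fun z k => h.fg_ext k.1

variable {hc : IsPreconnected τ.T.Ex} {Z : W4} (m : TI (rW τ hv hc) Z (Ioo (-10) 30)) (hv' : Loc v')

theorem em_mem {x : X torT v'} (k : rr v' x < 14) : τ.T.time v (em v v' p q τ.T x) ∈ Ioo (-10 : ℝ) 30 := by
  have := abs_le.1 (torT.abs_time_le 10 x)
  rw [em_time hd hv ev]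
  constructor <;> linarith [this.1, this.2]

/-- the toric cap in the middle part -/
def emb (ne : ∃ x, rr v' x < 14) : Em hv' (m4 Z) where
  φ := m ∘ em v v' p q τ.T
  ld x k := (em_ld hd hv ev x).comp _ _ (m.k.ld (em_mem hd hv ev k))
  inj _ a _ b e := em_inj hd hv ev (m.k.inj (em_mem hd hv ev a) (em_mem hd hv ev b) e)
  pos := Pos.comp m.p ((em_pos hd hv ev hv').mono (subset_univ _)) (fun _ => m.k.ld) (fun x _ => em_ld hd hv ev x)
    fun _ => em_mem hd hv ev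
  ne := ne

theorem emb_time (ne) {x : X torT v'} (k : rr v' x < 14) :
    Z.X.τ ((emb hd hv ev m hv' ne).φ x) = torT.time v' x :=
  (m.k.tm _ (em_mem hd hv ev k)).trans (em_time hd hv ev x)

theorem emb_R (ne) {x : Z.M} (k : (emb hd hv ev m hv' ne).R x < 13) : Z.X.τ x ∈ Ioo (-3 : ℝ) 23 := by
  obtain ⟨y, e, rfl⟩ := Em.ex _ k
  have := abs_le.1 (torT.abs_time_le 10 y)
  rw [emb_time hd hv ev m hv' ne (by linarith)]
  constructor <;> linarith [this.1, this.2]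

theorem emb_im (ne) {c : ℝ} {S : Set ℝ} :
    (emb hd hv ev m hv' ne).φ '' torT.disc v' c S = m '' τ.T.disc v c S := by
  refine (image_comp m (em v v' p q τ.T) _).trans (congrArg _ (Subset.antisymm ?_ fun y k => ?_))
  · rintro _ ⟨x, k, rfl⟩
    exact (em_disc hd hv ev).2 k.2
  · obtain ⟨x, rfl⟩ := em_surj hd ev k.1
    exact ⟨x, ⟨tor_torT _ x, (em_disc hd hv ev).1 k⟩, rfl⟩

theorem emb_U (ne) {x : Z.M} : x ∈ (emb hd hv ev m hv' ne).U ↔ x ∉ m '' τ.T.disc v 10 (Iic 12) := by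
  rw [← emb_im hd hv ev m hv' ne, ← not_iff_not, not_not]
  refine ⟨fun k => ?_, ?_⟩
  · obtain ⟨y, e, rfl⟩ := Em.ex _ ((not_lt.1 k).trans_lt (by norm_num : (12 : ℝ) < 13))
    exact ⟨y, ⟨tor_torT _ y, e.trans_le (not_lt.1 k)⟩, rfl⟩
  · rintro ⟨y, k, rfl⟩ l
    exact l.not_ge ((Em.R_of _ (k.2.trans (by norm_num))).trans_le k.2)

end em

variable {Z Z' Z₁ Z₂ : W4} {J J' J₀ : Set ℝ} {A : O3} {s t : ℝ}

theorem Ei.mt {f : Z.M → Z'.M} : ∀ {a : Option O3} (k : Ei a Z J') (l : TI Z Z' J₀) (hJ') (h) (s : ℝ) (hJ : IsOpen J) (m),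
    (∀ x, Z.X.τ x ∈ J' → f x = l x) → Ec.Mt (X := m4 Z) (X' := m4 Z') 0 f (k.ec s hJ m) ((k.map l hJ' h).ec s hJ m)
  | none, _, _, _, _, _, _, _, _ => trivial
  | some _, k, _, _, _, s, _, m, e => fun y t ht _ => e _ ((NK.k k).mem (x := (y, t + s)) (m t ht))

/-- the gluing of two timed pieces -/
def gl3 (ko : NK A Z₁ (Ioi s)) (ki : NK A Z₂ (Iio t)) (e : t = s + 4) (l : TI Z₁ Z (Iio t)) (r : TI Z₂ Z (Ioi s))
    (ov : ∀ y, ∀ u ∈ Ioo s t, l (ko (y, u)) = r (ki (y, u))) :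
    Gl3 (A := A) (Ei.o (a := some A) ko) (Ei.i (a := some A) ki) (m4 Z) where
  n := nc ((ko.k.restr isOpen_Ioo Ioo_subset_Ioi_self).trans (l.k.restr isOpen_Ioo Ioo_subset_Iio_self))
    ((ko.p.restr _ _).trans (l.p.restr _ _)) s isOpen_Ioo fun u k => ⟨by linarith [k.1], by linarith [k.2]⟩
  l := l.k.φ
  r := r.k.φ
  ls := l.k.src.trans (Set.ext fun x => show _ < t ↔ _ - s < 4 by rw [e, sub_lt_iff_lt_add'])
  lt := l.k.tgt.trans (Set.ext fun x => show _ < t ↔ _ - s < 4 by rw [e, sub_lt_iff_lt_add'])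
  rs := r.k.src.trans (Set.ext fun x => show s < _ ↔ -4 < _ - t by rw [e, lt_sub_iff_add_lt, neg_add_cancel_comm_assoc])
  rt := r.k.tgt.trans (Set.ext fun x => show s < _ ↔ 0 < _ - s from sub_pos.symm)
  pl := Pos.mono l.p l.k.src.le
  pr := Pos.mono r.p r.k.src.le
  ol _ _ _ := rfl
  or y u k := (congrArg (fun w => r (ki (y, w))) (by linarith)).trans
    (ov y (u + s) ⟨by linarith [k.1], by linarith [k.2]⟩).symm

namespace Fam

variable {τ : Tub} {hc : IsPreconnected τ.T.Ex} {v v0 : ℝ → Z2} {hv : Loc v} {hv0 : Loc v0} {a : Option Q3}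
  {B C : Q3} (F : Fam τ hc hv hv0 a B C)

theorem nB' (y : B.Y.M) (t : ℝ) (k : t ∈ Ioo (3 : ℝ) 7) : F.lC (F.l12 (F.o1 (y, t))) = F.rB (F.l23 (F.i2 (y, t))) :=
  (congrArg _ (F.nB y t k)).trans (F.as2 _ (((F.i2.k.tm (y, t) k.2).symm.subst (motive := (· ∈ Ioo (3 : ℝ) 17)))
    ⟨k.1, k.2.trans (by norm_num)⟩))

theorem nC' (y : C.Y.M) (t : ℝ) (k : t ∈ Ioo (13 : ℝ) 17) : F.lC (F.r12 (F.o2 (y, t))) = F.rC (F.i3 (y, t)) :=
  (F.as2 _ (((F.o2.k.tm (y, t) k.1).symm.subst (motive := (· ∈ Ioo (3 : ℝ) 17))) ⟨lt_trans (by norm_num) k.1, k.2⟩)).trans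
    ((congrArg _ (F.nC y t k)).trans (F.as3 _ (k.1.trans_eq (F.i3.k.tm (y, t) k.2).symm)))

/-- no boxes -/
def e0 : Fin 0 ⊕ Fin 0 ≃ Fin 0 := Equiv.equivOfIsEmpty _ _

def g12 : Cm F.X1 F.X2 F.X12 := ⟨gl3 F.o1 F.i2 (by norm_num) F.l12 F.r12 F.nB, F.ki.mt _ _ _ _ _ _ fun _ _ => rfl,
  Ei.mt (a := some C.toO3) F.o2 _ _ _ _ _ _ fun _ _ => rfl, e0, fun j => j.elim0, fun j => j.elim0⟩

def g23 : Cm F.X2 F.X3 F.X23 := ⟨gl3 F.o2 F.i3 (by norm_num) F.l23 F.r23 F.nC,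
  Ei.mt (a := some B.toO3) F.i2 _ _ _ _ _ _ fun _ _ => rfl, F.ko.mt _ _ _ _ _ _ fun _ _ => rfl, e0,
  fun j => j.elim0, fun j => j.elim0⟩

def gC : Cm F.X12 F.X3 F.X := ⟨gl3 _ F.i3 (by norm_num) F.lC F.rC F.nC', F.ki12.mt _ _ _ _ _ _ fun _ _ => rfl,
  F.ko.mt _ _ _ _ _ _ fun _ _ => rfl, e0, fun j => j.elim0, fun j => j.elim0⟩

/-- the first piece in the whole -/
def lB : TI F.W1 F.W (Iio 7) := F.l12.trans F.lC isOpen_Iio (Iio_subset_Iio (by norm_num))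

theorem mt_lB : Ec.Mt 0 F.lB F.X1.ki F.X.ki := by
  cases a
  exacts [trivial, fun _ _ _ _ => rfl]

theorem mt_rB : Ec.Mt 0 F.rB F.X23.ko F.X.ko := by
  cases a
  exacts [trivial, fun y t k _ => F.as3 _ (lt_trans (by norm_num)
    ((NK.k F.ko).mem (x := (y, t + 26)) (show 26 < t + 26 from lt_add_of_pos_left 26 k)))]

def gB : Cm F.X1 F.X23 F.X := ⟨gl3 F.o1 _ (by norm_num) F.lB F.rB F.nB', F.mt_lB, F.mt_rB, e0,
  fun j => j.elim0, fun j => j.elim0⟩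

/-- the complement of the plumbing in the filled manifold -/
def ψ (x : F.W.M) : F.W0.M := if F.W.X.τ x < -6 then F.el x else if 26 < F.W.X.τ x then F.er x
  else F.m0 (fn τ.T τ.T id v v0 (F.m.k.symm x))

theorem ψ_l (x : F.W.M) (k : F.W.X.τ x < -6) : F.ψ x = F.el x := if_pos k

theorem ψ_r (x : F.W.M) (k : 26 < F.W.X.τ x) : F.ψ x = F.er x := (if_neg (by linarith)).trans (if_pos k)

theorem ψ_m (x : F.W.M) (k : F.W.X.τ x ∈ Ioo (-10 : ℝ) 30) :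
    F.ψ x = F.m0 (fn τ.T τ.T id v v0 (F.m.k.symm x)) := by
  have e : τ.T.time v (F.m.k.symm x) = F.W.X.τ x := F.m.k.symm.tm x k
  unfold ψ
  split_ifs with h h'
  · rw [← F.ml _ (e ▸ ⟨k.1, h⟩), F.m.k.apply_symm k]
  · rw [← F.mr _ (e ▸ ⟨h', k.2⟩), F.m.k.apply_symm k]
  · rfl

theorem cases3 (t : ℝ) : t < -6 ∨ 26 < t ∨ t ∈ Ioo (-10 : ℝ) 30 := by
  rcases lt_or_ge t (-6) with h | h
  exacts [.inl h, .inr ((lt_or_ge 26 t).imp_right fun k => ⟨by linarith, by linarith⟩)]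

theorem neN : ∃ x, rr (wd wN) x < 14 := ⟨_, Em.rr_j' (Y := R0.toO3) aN (z := (Classical.arbitrary _, 1)) one_pos⟩

theorem neB : ∃ x, rr (wd wB) x < 14 := ⟨_, Em.rr_j' (Y := R0.toO3) aB (z := (Classical.arbitrary _, 1)) one_pos⟩

variable {p q : Z2} (hd : dt p q = τ.σ) (ev : ∀ t, v t = ac p q (wd wN t)) (ev0 : ∀ t, v0 t = ac p q (wd wB t))

/-- the plumbing -/
abbrev EN : Em isN.loc (m4 F.W) := emb hd hv ev F.m isN.loc neN

/-- `S¹ × B³` -/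
abbrev EB : Em isB.loc (m4 F.W0) := emb hd hv0 ev0 F.m0 isB.loc neB

theorem disc_mem {w : ℝ → Z2} {y : Rod53.X τ.T w} (k : y ∈ τ.T.disc w 10 (Iic 12)) : τ.T.time w y ∈ Icc (-2 : ℝ) 22 := by
  have := abs_le.1 ((τ.T.abs_time_le 10 y).trans k.2)
  constructor <;> linarith [this.1, this.2]

theorem tr : Tr (Y := R0.toO3) (F.EN hd ev) (F.EB hd ev0) aN aB F.ψ := by
  have e := TE.refl τ.T
  have g : ∀ x, 12 < |x - 10| → x ∈ interior {x | v x = v0 x} := fun x k =>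
    interior_mono (fun t (h : wd wN t = wd wB t) => show v t = v0 t by rw [ev, ev0, h]) (ag_sw k)
  have s : Icc (-2 : ℝ) 22 ⊆ Ioo (-10) 30 := Icc_subset_Ioo (by norm_num) (by norm_num)
  have U := fun x => emb_U hd hv ev F.m isN.loc neN (x := x)
  have U0 := fun x => emb_U hd hv0 ev0 F.m0 isB.loc neB (x := x)
  have a : ∀ x ∈ (F.EN hd ev).U, F.W.X.τ x ∈ Ioo (-10 : ℝ) 30 → F.m.k.symm x ∈ τ.T.ag v v0 := fun x h k =>
    τ.T.mem_ag_out g fun d => (U x).1 h ⟨_, d, F.m.k.apply_symm k⟩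
  have b : ∀ x ∈ (F.EN hd ev).U, F.W.X.τ x ∈ Ioo (-10 : ℝ) 30 →
      τ.T.time v0 (fn τ.T τ.T id v v0 (F.m.k.symm x)) = F.W.X.τ x := fun x h k =>
    (e.time_fn (a x h k)).trans (F.m.k.symm.tm x k)
  have b' := fun x h k => (b x h k).symm.subst (motive := (· ∈ Ioo (-10 : ℝ) 30)) k
  have tm : ∀ x ∈ (F.EN hd ev).U, F.W0.X.τ (F.ψ x) = F.W.X.τ x := fun x h => by
    rcases cases3 (F.W.X.τ x) with k | k | k
    · rw [F.ψ_l x k, F.el.k.tm x k]
    · rw [F.ψ_r x k, F.er.k.tm x k]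
    · rw [F.ψ_m x k, F.m0.k.tm _ (b' x h k)]
      exact b x h k
  have out : ∀ x, F.W.X.τ x ∉ Icc (-2 : ℝ) 22 → x ∈ (F.EN hd ev).U := fun x k => (U x).2 fun ⟨y, d, e⟩ =>
    k (e ▸ (F.m.k.tm y (s (disc_mem d))).symm ▸ disc_mem d)
  have o1 := (isOpen_Iio (a := -6)).preimage F.W.X.cont
  have o2 := (isOpen_Ioi (a := 26)).preimage F.W.X.cont
  have o3 := (isOpen_Ioo (a := -10) (b := 30)).preimage F.W.X.cont
  have l3 := fun x h k => (F.m.k.symm.ld k).comp _ _ (e.ld_fn (a x h k))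
  refine ⟨fun x h => ?_, ⟨fun x h => (U0 _).2 fun ⟨y, d, r⟩ => ?_, fun x h y h' r => ?_, fun z h => ?_⟩,
    fun x h => ?_, fun z k => ?_⟩
  · rcases cases3 (F.W.X.τ x) with k | k | k
    · exact Cyl58.ld_congr (F.el.k.ld k) (eventually_of_mem (o1.mem_nhds k) F.ψ_l)
    · exact Cyl58.ld_congr (F.er.k.ld k) (eventually_of_mem (o2.mem_nhds k) F.ψ_r)
    · exact Cyl58.ld_congr ((l3 x h k).comp _ _ (F.m0.k.ld (b' x h k))) (eventually_of_mem (o3.mem_nhds k) F.ψ_m)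
  · have k : F.W.X.τ x ∈ Ioo (-10 : ℝ) 30 := tm x h ▸ r ▸ F.m0.k.mem (s (disc_mem d))
    rw [F.m0.k.inj (s (disc_mem d)) (b' x h k) (r.trans (F.ψ_m x k))] at d
    exact (U x).1 h ⟨_, (e.fn_mem_ov (a x h k)).1 d, F.m.k.apply_symm k⟩
  · have t := (tm x h).symm.trans ((congrArg _ r).trans (tm y h'))
    rcases cases3 (F.W.X.τ x) with k | k | k
    · exact F.el.k.inj k (t ▸ k :) ((F.ψ_l x k).symm.trans (r.trans (F.ψ_l y (t ▸ k))))
    · exact F.er.k.inj k (t ▸ k :) ((F.ψ_r x k).symm.trans (r.trans (F.ψ_r y (t ▸ k))))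
    · exact F.m.k.symm.inj k (t ▸ k :) (e.injOn_fn (a x h k) (a y h' (t ▸ k)) (F.m0.k.inj (b' x h k)
        (b' y h' (t ▸ k)) ((F.ψ_m x k).symm.trans (r.trans (F.ψ_m y (t ▸ k))))))
  · rcases cases3 (F.W0.X.τ z) with k | k | k
    · obtain ⟨x, t, rfl⟩ := F.el.k.surj k
      exact ⟨x, out x fun l => by linarith [l.1], F.ψ_l x (t ▸ k)⟩
    · obtain ⟨x, t, rfl⟩ := F.er.k.surj k
      exact ⟨x, out x fun l => by linarith [l.2], F.ψ_r x (t ▸ k)⟩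
    · obtain ⟨y, t, rfl⟩ := F.m0.k.surj k
      obtain ⟨x, hx, rfl⟩ := e.exists_fn (v' := v) (τ.T.mem_ag_out (fun x k => int_symm (g x k))
        fun d => (U0 _).1 h ⟨y, d, rfl⟩) (.inr surjective_id)
      have k' : τ.T.time v x ∈ Ioo (-10 : ℝ) 30 := ((e.time_fn hx).symm.trans t).symm ▸ k
      refine ⟨F.m x, (U _).2 fun ⟨x', d, r⟩ => (U0 _).1 h ⟨_, (e.fn_mem_ov hx).2 ?_, rfl⟩, ?_⟩
      · exact F.m.k.inj (s (disc_mem d)) k' r ▸ d
      · rw [F.ψ_m _ (F.m.k.mem k'), F.m.k.symm_apply k']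
  · rcases cases3 (F.W.X.τ x) with k | k | k
    · exact Pos.congr F.el.p o1 F.ψ_l x k
    · exact Pos.congr F.er.p o2 F.ψ_r x k
    · refine (Pos.comp F.m0.p (((oX_spec hv τ.ori).fn (oX_spec hv0 τ.ori) e (pos_id.2 τ.ori.same)).comp
        (t := (F.EN hd ev).U ∩ F.W.X.τ ⁻¹' Ioo (-10) 30) (F.m.p.symm.mono inter_subset_right) (fun _ => e.ld_fn)
        (fun _ k => F.m.k.symm.ld k.2) fun y k => a y k.1 k.2) (fun _ => F.m0.k.ld) (fun y k => l3 y k.1 k.2)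
        fun y k => b' y k.1 k.2).congr ((F.EN hd ev).U.isOpen.inter o3) (fun y k => F.ψ_m y k.2) x ⟨h, k⟩
  · have k' := em_mem hd hv ev (Em.rr_j' (Y := R0.toO3) aN k)
    refine (F.ψ_m _ (F.m.k.mem k')).trans (congrArg F.m0 ?_)
    rw [F.m.k.symm_apply k', ← chg_j]
    refine τ.T.nf_injective v0 ?_
    have n : aN.j z ∉ torT.disc (wd wN) 10 (Iic 12) := fun e => (lt_rd 12 z.2).not_ge (aN.j_mem.1 e)
    rw [e.nf_fn (τ.T.mem_ag_out g fun d => n ⟨tor_torT _ _, (em_disc hd hv ev).1 d⟩), em_nf hd hv ev, em_nf hd hv0 ev0,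
      Tb.chgPD_apply, (TE.refl torT).nf_fn (torT.mem_ag_out (fun _ => ag_sw) n)]
    simp

end Fam

end Crest.Agent.X212.Cut19
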