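import Crest.Agent.X212.Cut19.Cg
import Crest.Agent.X212.Cut19.Mid

/-!
# Row 212, layer GEO (helper19): `Pen22.CutStmt` from the leaves
-/

set_option autoImplicit false
set_option linter.unusedSectionVars false

open Set Filter Topology Function
open scoped ContDiff Manifold Real
open Crest.Agent.X212.Bor5.T Crest.Agent.X212.Geo28 Crest.Agent.X212.Dr59
open Crest.Agent.X212.Rod53 (Z2 Loc torT wd ac dt PM)
open Crest.Agent.X212.Rfl19 (pb_mono)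

noncomputable section

namespace Crest.Agent.X212.Cut19

namespace Fam

variable {τ : Tub} {hc : IsPreconnected τ.T.Ex} {v v0 : ℝ → Z2} {hv : Loc v} {hv0 : Loc v0} {a : Option Q3}
  {B C : Q3} (F : Fam τ hc hv hv0 a B C) {p q : Z2} (hd : dt p q = τ.σ) (ev : ∀ t, v t = ac p q (wd wN t))
  (ev0 : ∀ t, v0 t = ac p q (wd wB t))

theorem cN (x : F.W.M) (k : (F.EN hd ev).R x < 13) : x ∈ F.X.Core :=
  pc_core _ _ _ (Ioo_subset_Icc_self.trans (Icc_subset_Icc (by norm_num) (by norm_num)) (emb_R hd hv ev _ _ _ k))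

/-- the complement of the plumbing -/
abbrev L : Pm (vo a) (vo a) (some R0.toO3) := (F.EN hd ev).L (Y := R0.toO3) aN posN _ (F.cN hd ev)

def gN : Cp3 (F.L hd ev) N0 F.X :=
  (Tr.refl (Y := R0.toO3) _ aN).cp posN posN _ (Geo7.mt_id _ _) (Geo7.mt_id _ _)

def g0 : Cp3 (F.L hd ev) B0 F.X0 :=
  (F.tr hd ev ev0).cp posN posB _ (F.kiW.mt _ _ _ _ _ _ F.ψ_l) (F.koW.mt _ _ _ _ _ _ F.ψ_r)

/-- the reflections -/
structure RD (ρ : RN) where
  r : Bool → LR F.X.X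
  h : ∀ s, (ρ.r s).Ps (F.gN hd ev).r (r s)
  r12 : LR F.X12.X
  h12 : r12.Ps F.gC.l (r false)
  r23 : LR F.X23.X
  h23 : r23.Ps F.gB.r (r true)

variable {F hd ev} {ρ : RN}

theorem ps_mem {s : Bool} {r : LR F.X.X} (h : (ρ.r s).Ps (F.gN hd ev).r r) {x : F.W.M} (k : x ∈ r.U) :
    (F.EN hd ev).R x < 12 ∧ F.W.X.τ x ∈ Ioo (cond s 8 (-2) : ℝ) (cond s 22 12) := by
  rw [h.U, ρ.U] at k
  obtain ⟨y, k, rfl⟩ := k
  have e := UN_rr s k
  have := abs_lt.1 ((torT.abs_time_le _ y).trans_lt k.2)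
  refine ⟨((F.EN hd ev).R_of (by linarith)).trans_lt e, ?_⟩
  rw [show F.W.X.τ ((F.gN hd ev).r y) = _ from emb_time hd hv ev F.m isN.loc neN (by linarith)]
  cases s <;> constructor <;> simp only [cond] at this ⊢ <;> linarith [this.1, this.2]

variable (F hd ev ρ) in
theorem exists_RD : Nonempty (F.RD hd ev ρ) := by
  choose r h using fun s => (ρ.r s).exists_ps (F.gN hd ev).r
    (fun x k => (F.gN hd ev).rs.ge (lt_of_lt_of_le (by norm_num) (ρ.core s k).1)) (F.gN hd ev).pr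
  obtain ⟨r12, h12⟩ := LR.exists_ps' (r false) F.gC.l
    (fun x k => F.lC.k.tgt.ge ((ps_mem (h _) k).2.2.trans (by norm_num))) F.gC.pl
  obtain ⟨r23, h23⟩ := LR.exists_ps' (r true) F.gB.r
    (fun x k => F.rB.k.tgt.ge (lt_trans (by norm_num) (ps_mem (h _) k).2.1)) F.gB.pr
  exact ⟨⟨r, h, r12, h12, r23, h23⟩⟩

variable (D : F.RD hd ev ρ)

theorem RD.core (s : Bool) : (D.r s).U ⊆ F.X.Core := fun x k => F.cN hd ev x ((ps_mem (D.h s) k).1.trans (by norm_num))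

theorem RD.c12 : D.r12.U ⊆ F.X12.Core := fun x k => pc_core _ _ _ <| by
  have := (ps_mem (D.h _) (D.h12.U.ge ⟨x, k, rfl⟩)).2
  rw [show F.W.X.τ (F.gC.l x) = _ from F.lC.k.tm x (F.lC.k.src.le (D.h12.sub k))] at this
  exact Ioo_subset_Icc_self.trans (Icc_subset_Icc (by norm_num) (by norm_num)) this

theorem RD.c23 : D.r23.U ⊆ F.X23.Core := fun x k => pc_core _ _ _ <| by
  have := (ps_mem (D.h _) (D.h23.U.ge ⟨x, k, rfl⟩)).2
  rw [show F.W.X.τ (F.gB.r x) = _ from F.rB.k.tm x (F.rB.k.src.le (D.h23.sub k))] at this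
  exact Ioo_subset_Icc_self.trans (Icc_subset_Icc (by norm_num) (by norm_num)) this

include ev0 in
theorem ext (h : Lvs) (h3 : F.H3) : Ext2 (A := R0.toO3) (F.L hd ev).k3
    {x | (F.L hd ev).ki.tm x < 0 ∨ 0 < (F.L hd ev).ko.tm x} :=
  h.ext _ R0 _ B0 _ (F.g0 hd ev ev0) h.b.hz fun η k => h3 η (k.mono fun _ e =>
    Ioo_subset_Icc_self.trans (Icc_subset_Icc (by norm_num) (by norm_num)) (emb_R hd hv0 ev0 F.m0 isB.loc neB
      (rd_zero ▸ (lt_ct (by norm_num)).1 ((F.g0 hd ev ev0).n.tgt.le e).1)))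

/-- the pentagon -/
abbrev RD.P (h : Lvs) (h3 : F.H3) : PG0 (ρ.G h) a B C where
  X1 := F.X1
  X2 := F.X2
  X3 := F.X3
  X12 := F.X12
  X23 := F.X23
  X := F.X
  L := F.L hd ev
  X0 := F.X0
  g12 := F.g12
  g23 := F.g23
  gC := F.gC
  gB := F.gB
  as1 _ _ := rfl
  as2 x k l := F.as2 x ⟨F.r12.k.src.le k, F.l23.k.src.le l⟩
  as3 x k := F.as3 x (F.r23.k.src.le k)
  gN := F.gN hd ev
  g0 := F.g0 hd ev ev0
  ext := ext ev0 h h3
  ρ12 := D.r12.rf D.c12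
  ρ23 := D.r23.rf D.c23
  ρ s := (D.r s).rf (D.core s)
  mC := ⟨D.h12.eq, fun _ k => (D.r _).off _ fun e => (F.rC.k.mem (F.rC.k.src.le k)).not_gt
    ((ps_mem (D.h _) ((D.r _).KU e)).2.2.trans (by norm_num))⟩
  mB := ⟨fun _ k => (D.r _).off _ fun e => (F.lB.k.mem (F.lB.k.src.le k)).not_gt
    (lt_trans (by norm_num) (ps_mem (D.h _) ((D.r _).KU e)).2.1), D.h23.eq⟩
  mN s := ⟨fun x _ => (D.r s).off _ fun e => (ps_mem (D.h _) ((D.r _).KU e)).1.not_gt x.2, (D.h s).eq⟩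
  hC _ _ k := D.h12.half (pb_mono k D.h12.sub)
  hB _ _ k := D.h23.half (pb_mono k D.h23.sub)
  hN s _ _ k := (D.h s).half (pb_mono k (D.h s).sub)

theorem far {x : F.W.M} (k : F.W.X.τ x < -6 ∨ 26 < F.W.X.τ x) : ∃ y : (F.L hd ev).M,
    (F.L hd ev).k3.tm y ≤ 0 ∧ (F.gN hd ev).l y = x ∧ (F.g0 hd ev ev0).l y = F.ψ x :=
  have e : ¬(F.EN hd ev).R x < 13 := fun e => by
    have := emb_R hd hv ev F.m isN.loc neN e
    rcases k with k | k <;> linarith [this.1, this.2]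
  ⟨⟨x, show 12 < (F.EN hd ev).R x by linarith⟩, Em.k3_le (Y := R0.toO3) _ aN posN e, rfl, rfl⟩

theorem io_far (h : Lvs) {B C : Q3} {F : Fam τ hc hv hv0 none B C} (h3 : F.H3) (D : F.RD hd ev ρ) {W : M4}
    (φ : W.Dif F.X0.X) {x : F.W.M} (k : F.W.X.τ x < -6 ∨ 26 < F.W.X.τ x) {z : W.M} (e : F.ψ x = φ.φ z) :
    (φ.φ z ∈ (F.g0 hd ev ev0).l.target ∧ (F.g0 hd ev ev0).l.symm (φ.φ z) ∈ (F.L hd ev).Core) ∧
      z ∈ (Pen22.io (D.P ev0 h h3) φ).source ∧ Pen22.io (D.P ev0 h h3) φ z = x := by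
  obtain ⟨y, a, b, c⟩ := far (hd := hd) (ev := ev) ev0 k
  have s := (F.g0 hd ev ev0).ls.ge (a.trans_lt four_pos)
  have t : φ.φ z ∈ (F.g0 hd ev ev0).l.target := e ▸ c ▸ (F.g0 hd ev ev0).l.map_source s
  have u : (F.g0 hd ev ev0).l.symm (φ.φ z) = y := e ▸ c ▸ (F.g0 hd ev ev0).l.left_inv s
  exact ⟨⟨t, u ▸ ⟨le_rfl, le_rfl, a⟩⟩, ⟨trivial, t, (F.gN hd ev).ls.ge (u.symm.subst
    (motive := fun y => (F.L hd ev).k3.tm y < 4) (a.trans_lt four_pos))⟩, (congrArg _ u).trans b⟩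

end Fam

theorem sig_pent {S : Scene} {Q : Prd} {R : ℝ} (P : Pent S Q R) : dt (0, 1) (1, 0) = P.τ.σ := by
  obtain ⟨a, c, h1, h2, h3, h4⟩ := P.t3
  rw [P.ea] at h1
  rw [P.ee] at h2
  rw [P.eb] at h3 h4
  rcases h1 with rfl | rfl <;> rcases h2 with rfl | rfl <;> simp [dt] at h3 h4 ⊢
  omega

theorem std (w : ℝ → Z2) (t : ℝ) : w t = ac (0, 1) (1, 0) (w t) := (Rod53.ac_std _).symm

/-- the pentagon at the empty vertex -/
def NF.nh {S : Scene} {Q : Prd} {R : ℝ} {P : Pent S Q R} {hc : IsPreconnected P.τ.T.Ex}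
    {F : Fam P.τ hc isN.loc isB.loc none (S.ob P.i) (S.ob P.j)} (N : NF P F) (h : Lvs) {ρ : RN}
    (D : F.RD (sig_pent P) (std _) ρ) : Pen22.NH (ρ.H h) P (D.P (std _) h N.h3) :=
  have L : ∀ z, P.W.X.τ z < N.β → ∃ x, F.W.X.τ x < -6 ∧ F.ψ x = N.φ0.φ z := fun z k =>
    let ⟨x, a, b⟩ := F.el.k.surj ((N.tl z).2 k)
    have c := a.trans_lt ((N.tl z).2 k)
    ⟨x, c, (F.ψ_l x c).trans b⟩
  have R : ∀ z, N.α < P.W.X.τ z → ∃ x, 26 < F.W.X.τ x ∧ F.ψ x = N.φ0.φ z := fun z k =>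
    let ⟨x, a, b⟩ := F.er.k.surj ((N.tr z).2 k)
    have c := ((N.tr z).2 k).trans_eq a.symm
    ⟨x, c, (F.ψ_r x c).trans b⟩
  have f := fun x k z => Fam.io_far (std _) h N.h3 D N.φ0 (x := x) k (z := z)
  { φ1 := N.φ1
    ko := let ⟨δ, e⟩ := N.ko
      ⟨δ - 3, e.mono fun t k y => (k y).trans (congrArg (fun s => F.o1 (y, s)) (by ring))⟩
    φ0 := N.φ0
    α := N.α
    β := N.β
    hα := N.hα
    hβ := N.hβ
    core := fun z k => k.elim (fun k => let ⟨x, a, b⟩ := L z k; (f x (.inl a) z b).1)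
      fun k => let ⟨x, a, b⟩ := R z k; (f x (.inr a) z b).1
    l := fun z k => let ⟨a, b⟩ := N.l z k
      have c := (F.lB.k.tm _ (a.trans (by norm_num))).trans_lt a
      ⟨⟨le_rfl, sub_nonpos.2 (a.le.trans (by norm_num)), le_rfl⟩, (f _ (.inl c) z ((F.ψ_l _ c).trans b)).2.2⟩
    r := fun z k => let ⟨x, a, b⟩ := R z k
      let ⟨y, c, d⟩ := F.rC.k.surj (y := x) (lt_trans (by norm_num) a)
      ⟨y, ⟨sub_nonneg.2 (le_trans (by norm_num) (a.trans_eq c.symm).le), le_rfl, le_rfl⟩,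
        (f x (.inr a) z b).2.2.trans d.symm⟩
    mid := fun y z hy hz => by
      have e := (D.r false).lat
      rw [(D.h false).U, (D.h false).e, ρ.U] at e
      refine h.mid S Q _ P hc F.W (isCompact_univ_iff.1 ((F.X.cpt 0).of_isClosed_subset isClosed_univ
        fun _ _ => ⟨neg_zero.le, le_rfl, le_rfl⟩)) F.m.k F.m.p _ _
        (emb_im (sig_pent P) isN.loc (std _) F.m isN.loc Fam.neN ▸ e) y z fun w k => ?_
      obtain ⟨a, b, c⟩ : Pen22.Md (D.P (std _) h N.h3) N.φ0 N.α N.β w := by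
        rcases k with rfl | rfl <;> assumption
      refine ⟨a, (ex_pd _ (isOpen_Iio.preimage P.W.X.cont) (fun z k => ?_) b).mono fun x k => ?_,
        (ex_pd _ (isOpen_Ioi.preimage P.W.X.cont) (fun z k => ?_) c).mono fun x k => ?_⟩
      · exact let ⟨x, a, b⟩ := L z k; (f x (.inl a) z b).2.1
      · have i := N.φ0.φ.apply_symm_apply (F.el x)
        exact ⟨_, (N.tl _).1 ((congrArg _ i).trans_lt (F.el.k.mem k)),
          (f x (.inl k) _ ((F.ψ_l x k).trans i.symm)).2.2⟩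
      · exact let ⟨x, a, b⟩ := R z k; (f x (.inr a) z b).2.1
      · have i := N.φ0.φ.apply_symm_apply (F.er x)
        exact ⟨_, (N.tr _).1 ((F.er.k.mem k).trans_eq (congrArg _ i).symm),
          (f x (.inr k) _ ((F.ψ_r x k).trans i.symm)).2.2⟩ }

/-- **PEN-CUT** from the leaves -/
theorem cutStmt (h : Lvs) (hQ : QStmt) (hN : NStmt) : Pen22.CutStmt := by
  obtain ⟨ρ⟩ := exists_RN h
  refine ⟨ρ.G h, ρ.H h, fun τ a b e A B C f g k ⟨q, p, h1, h2, h3, h4⟩ => ?_, fun S Q R P => ?_⟩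
  · obtain ⟨hc, v, v0, hv, hv0, F, ev, ev0, Q⟩ := hQ h.h3 h.ph τ A B C a b e p q f g k h1 h2 h3 h4
    have hd : dt p q = τ.σ := by
      rw [← h3] at h4
      simp only [dt, Prod.fst_add, Prod.snd_add] at h4 ⊢
      linarith
    obtain ⟨D⟩ := F.exists_RD hd ev ρ
    exact ⟨D.P ev0 h Q.h3, ⟨Q.cyl, Q.h1, Q.bd, Q.q1, Q.q2, Q.q3,
      h.ns _ (ρ.H h) _ _ _ (F.gN hd ev) (Fam.ext ev0 h Q.h3)⟩, Q.w1, Q.w2, Q.w3⟩
  · obtain ⟨hc, F, ⟨N⟩⟩ := hN h.h3 S Q R P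
    obtain ⟨D⟩ := F.exists_RD (sig_pent P) (std _) ρ
    exact ⟨_, ⟨N.nh h D⟩⟩

end Crest.Agent.X212.Cut19
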